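import Vale.Agent.P073.H248.Spec
import Vale.Agent.P073.TR.DirMap
import Vale.Agent.P073.H339.Glue2
import Vale.Agent.P073.SCH.LocConeImage

/-!
# P073: vertical parts of a conical 2-sphere stand over disjoint circles
-/

open Set Metric Topology Filter

namespace P073.H225

open P073.ALX (P V)

theorem conSphere_locCone {E : Type*} [NormedAddCommGroup E] [NormedSpace ℝ E] {n : ℕ}
    {S : Set E} (h : ConSphere n S) : LocCone S := by
  obtain ⟨φ⟩ := h
  exact LocCone.of_conHomeo (isCompact_sphere _ _) (locCone_sphere_pi _) φ.symm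

theorem conSphere_isCompact {E : Type*} [NormedAddCommGroup E] [NormedSpace ℝ E] {n : ℕ}
    {S : Set E} (h : ConSphere n S) : IsCompact S := by
  obtain ⟨φ⟩ := h
  exact φ.symm.isCompact_right (isCompact_sphere _ _)

theorem normCon_V : H248.NormCon V :=
  (H248.normCon_real.prod H248.normCon_real).prod H248.normCon_real

/-- **local form**: if `S` is vertical near `(y, c) ∈ S`, with slice `Γ`, then `Γ` is near `y` a
cone with two directions -/
theorem dirs_two_of_vertical {S : Set V} {Γ : Set P} (hS : ConSphere 2 S) {y : P} {c r : ℝ}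
    (hmem : (y, c) ∈ S) (hr : 0 < r)
    (hv : ∀ (w : P) (z : ℝ), ‖w - y‖ < r → |z - c| < r → ((w, z) ∈ S ↔ w ∈ Γ)) :
    LocConeAt Γ y ∧ (TR.dirs Γ y).ncard = 2 := by
  obtain ⟨R0, hR0, hcone⟩ := conSphere_locCone hS (y, c)
  have hyΓ : y ∈ Γ := (hv y c (by simpa using hr) (by simpa using hr)).1 hmem
  refine ⟨⟨min R0 (r / 2), lt_min hR0 (by linarith), fun v hvn t ht => ?_⟩, ?_⟩
  · have h1 : ‖((v, (0:ℝ)) : V)‖ ≤ R0 := by
      rw [Prod.norm_mk, norm_zero, max_eq_left (norm_nonneg _)]
      exact hvn.trans (min_le_left _ _)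
    have h2 := hcone (v, 0) h1 t ht
    have e1 : ((y, c) : V) + t • ((v, (0:ℝ)) : V) = (y + t • v, c) := by
      ext1
      · rfl
      · show c + t * 0 = c
        ring
    have e2 : ((y, c) : V) + ((v, (0:ℝ)) : V) = (y + v, c) := by
      ext1
      · rfl
      · show c + 0 = c
        ring
    have hvr : ‖v‖ < r := by
      have := hvn.trans (min_le_right _ _)
      linarith
    rw [e1, e2, hv _ _ (by
      rw [add_sub_cancel_left]
      exact (norm_smul_le_of_mem_Icc ⟨ht.1.le, ht.2⟩ le_rfl).trans_lt hvr) (by simpa using hr),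
      hv _ _ (by rw [add_sub_cancel_left]; exact hvr) (by simpa using hr)] at h2
    exact h2
  -- the link
  set ρ : ℝ := min R0 (r / 2) with hρd
  have hρ : 0 < ρ := lt_min hR0 (by linarith)
  have hρr : ρ < r := by
    have : ρ ≤ r / 2 := min_le_right _ _
    linarith
  have hC : H248.ConeIn S (y, c) ρ := fun v hvn => hcone v (hvn.trans (min_le_left _ _))
  have hlink : ConSphere 1 (S ∩ sphere ((y, c) : V) ρ) :=
    H248.conSphere_link normCon_V hS hmem hρ hC
  have hcirc : IsCircle (S ∩ sphere ((y, c) : V) ρ) := H339.conSphere_iff.1 hlink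
  have hy' : ((y, c + ρ) : V) ∈ S ∩ sphere ((y, c) : V) ρ := by
    refine ⟨?_, ?_⟩
    · rw [hv y (c + ρ) (by simpa using hr) (by
        rw [add_sub_cancel_left, abs_of_pos hρ]; exact hρr)]
      exact hyΓ
    · rw [mem_sphere, dist_eq_norm]
      have : ((y, c + ρ) : V) - (y, c) = (0, ρ) := by
        ext1
        · exact sub_self y
        · show c + ρ - c = ρ
          ring
      rw [this, Prod.norm_mk, norm_zero, Real.norm_of_nonneg hρ.le, max_eq_right hρ.le]
  have htwo := hcirc.encard_dirs hy'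
  have himg : TR.dirs (S ∩ sphere ((y, c) : V) ρ) (y, c + ρ) =
      (fun u : P => ((u, (0:ℝ)) : V)) '' TR.dirs Γ y := by
    apply Subset.antisymm
    · rintro ⟨u1, u2⟩ ⟨hu1, hu2⟩
      have hu2' : ∀ᶠ t in 𝓝[>] (0:ℝ), ((y, c + ρ) : V) + t • ((u1, u2) : V) ∈
          S ∩ sphere ((y, c) : V) ρ := hu2
      have hn1 : ‖u1‖ ≤ 1 := (norm_fst_le ((u1, u2) : V)).trans hu1.le
      have hn2 : |u2| ≤ 1 := by
        rw [← Real.norm_eq_abs]
        exact (norm_snd_le ((u1, u2) : V)).trans hu1.le
      have hsmall : ∀ᶠ t in 𝓝[>] (0:ℝ), t ∈ Ioo 0 ρ := Ioo_mem_nhdsGT hρ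
      have hform : ∀ t : ℝ, ((y, c + ρ) : V) + t • ((u1, u2) : V) =
          (y + t • u1, c + ρ + t * u2) := fun t => rfl
      have key : ∀ t ∈ Ioo 0 ρ, ((y, c + ρ) : V) + t • ((u1, u2) : V) ∈
          S ∩ sphere ((y, c) : V) ρ → u2 = 0 := by
        rintro t ht ⟨-, hsph⟩
        rw [hform, mem_sphere, dist_eq_norm] at hsph
        have e1 : ((y + t • u1, c + ρ + t * u2) : V) - (y, c) = (t • u1, ρ + t * u2) := by
          ext1
          · show y + t • u1 - y = t • u1
            abel
          · show c + ρ + t * u2 - c = ρ + t * u2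
            ring
        rw [e1, Prod.norm_mk] at hsph
        have h1 : ‖t • u1‖ < ρ := by
          rw [norm_smul, Real.norm_of_nonneg ht.1.le]
          nlinarith [ht.1, ht.2, norm_nonneg u1]
        have h2 : ‖ρ + t * u2‖ = ρ := by
          rcases le_total ‖t • u1‖ ‖ρ + t * u2‖ with h | h
          · rwa [max_eq_right h] at hsph
          · rw [max_eq_left h] at hsph
            exact absurd hsph h1.ne
        have h3 : |t * u2| ≤ t := by
          rw [abs_mul, abs_of_pos ht.1]
          nlinarith [ht.1]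
        have h4 : 0 < ρ + t * u2 := by
          have := (abs_le.1 h3).1
          linarith [ht.2]
        rw [Real.norm_of_nonneg h4.le] at h2
        have h5 : t * u2 = 0 := by linarith
        rcases mul_eq_zero.1 h5 with h6 | h6
        · exact absurd h6 ht.1.ne'
        · exact h6
      obtain ⟨t, ht1, ht2⟩ := (hu2'.and hsmall).exists
      have h0 : u2 = 0 := key t ht2 ht1
      subst h0
      refine ⟨u1, ⟨?_, ?_⟩, rfl⟩
      · rw [Prod.norm_mk, norm_zero, max_eq_left (norm_nonneg _)] at hu1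
        exact hu1
      · show ∀ᶠ t in 𝓝[>] (0:ℝ), y + t • u1 ∈ Γ
        filter_upwards [hu2', hsmall] with t h1 h2
        rw [hform, mul_zero, add_zero] at h1
        refine (hv _ _ ?_ ?_).1 h1.1
        · rw [add_sub_cancel_left, norm_smul, Real.norm_of_nonneg h2.1.le]
          nlinarith [h2.1, h2.2, norm_nonneg u1]
        · rw [add_sub_cancel_left, abs_of_pos hρ]; exact hρr
    · rintro _ ⟨u1, ⟨hu1, hu2⟩, rfl⟩
      have hu2' : ∀ᶠ t in 𝓝[>] (0:ℝ), y + t • u1 ∈ Γ := hu2
      have hsmall : ∀ᶠ t in 𝓝[>] (0:ℝ), t ∈ Ioo 0 ρ := Ioo_mem_nhdsGT hρ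
      refine ⟨?_, ?_⟩
      · rw [Prod.norm_mk, norm_zero, max_eq_left (norm_nonneg _)]
        exact hu1
      · show ∀ᶠ t in 𝓝[>] (0:ℝ), ((y, c + ρ) : V) + t • ((u1, (0:ℝ)) : V) ∈
          S ∩ sphere ((y, c) : V) ρ
        filter_upwards [hu2', hsmall] with t h1 h2
        have hform : ((y, c + ρ) : V) + t • ((u1, (0:ℝ)) : V) = (y + t • u1, c + ρ) := by
          ext1
          · rfl
          · show c + ρ + t * 0 = c + ρ
            ring
        have h3 : ‖t • u1‖ < ρ := by
          rw [norm_smul, Real.norm_of_nonneg h2.1.le, hu1, mul_one]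
          exact h2.2
        rw [hform]
        refine ⟨?_, ?_⟩
        · rw [hv _ _ (by rw [add_sub_cancel_left]; exact h3.trans hρr) (by
            rw [add_sub_cancel_left, abs_of_pos hρ]; exact hρr)]
          exact h1
        · rw [mem_sphere, dist_eq_norm]
          have e1 : ((y + t • u1, c + ρ) : V) - (y, c) = (t • u1, ρ) := by
            ext1
            · show y + t • u1 - y = t • u1
              abel
            · show c + ρ - c = ρ
              ring
          rw [e1, Prod.norm_mk, Real.norm_of_nonneg hρ.le, max_eq_right h3.le]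
  have hinj : Function.Injective (fun u : P => ((u, (0:ℝ)) : V)) := fun a b h =>
    congrArg Prod.fst h
  rw [himg, hinj.encard_image] at htwo
  rw [Set.ncard, htwo]
  rfl

/-- the classification of compact sets with two directions everywhere, with finite sets -/
theorem exists_finset_circles {E : Type*} [NormedAddCommGroup E] [NormedSpace ℝ E] {Γ : Set E}
    (hc : IsCompact Γ) (hL : ∀ w ∈ Γ, LocConeAt Γ w) (h2 : ∀ w ∈ Γ, (TR.dirs Γ w).ncard = 2) :
    ∃ F : Finset (Set E), (∀ c ∈ F, IsCircle c) ∧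
      (∀ c ∈ F, ∀ c' ∈ F, c ≠ c' → Disjoint c c') ∧ Γ = ⋃ c ∈ F, c := by
  classical
  obtain ⟨J, hJ, C, hU, hd, hS⟩ := TR.exists_circles hc hL h2
  have := Fintype.ofFinite J
  refine ⟨Finset.univ.image C, fun c hc => ?_, fun c hc c' hc' hne => ?_, ?_⟩
  · obtain ⟨j, -, rfl⟩ := Finset.mem_image.1 hc
    exact H339.conSphere_iff.1 (hS j)
  · obtain ⟨j, -, rfl⟩ := Finset.mem_image.1 hc
    obtain ⟨j', -, rfl⟩ := Finset.mem_image.1 hc'
    exact hd j j' fun h => hne (by rw [h])
  · rw [← hU]
    ext w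
    simp

theorem specSlab : H248.SpecSlab := by
  intro S a b Γ hS hab hv
  set m : ℝ := (a + b) / 2 with hm
  have ham : a < m := by rw [hm]; linarith
  have hmb : m < b := by rw [hm]; linarith
  have hSc := conSphere_isCompact hS
  have hcomp : IsCompact Γ := by
    have h1 : Γ = Prod.fst '' (S ∩ (univ ×ˢ {m})) := by
      ext w
      constructor
      · intro hw
        exact ⟨(w, m), ⟨(hv w m ham hmb).2 hw, mem_univ _, rfl⟩, rfl⟩
      · rintro ⟨⟨w', z⟩, ⟨h1, -, h2⟩, rfl⟩
        have h2' : z = m := h2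
        subst h2'
        exact (hv w' _ ham hmb).1 h1
    rw [h1]
    exact (hSc.inter_right (isClosed_univ.prod isClosed_singleton)).image continuous_fst
  have hloc : ∀ w ∈ Γ, LocConeAt Γ w ∧ (TR.dirs Γ w).ncard = 2 := by
    intro w hw
    refine dirs_two_of_vertical hS (c := m) (r := (b - a) / 2) ((hv w m ham hmb).2 hw)
      (by linarith) fun w' z _ hz => hv w' z ?_ ?_
    · have := (abs_lt.1 hz).1
      rw [hm] at this
      linarith
    · have := (abs_lt.1 hz).2
      rw [hm] at this
      linarith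
  exact ⟨hcomp, fun w hw => (hloc w hw).1, fun w hw => (hloc w hw).2,
    exists_finset_circles hcomp (fun w hw => (hloc w hw).1) fun w hw => (hloc w hw).2⟩

end P073.H225
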