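import Vale.Agent.P073.H225.Vertex

/-!
# P073: (R) and (V): straightening of a regular level / of a level with one vertex
-/

set_option linter.unusedSectionVars false

open Set Metric Topology Filter
open scoped NNReal

namespace P073.H225

variable {W : Type*} [NormedAddCommGroup W] [NormedSpace ℝ W] {S : Set (W × ℝ)}

/-- `S` is locally invariant near `p` under a translation direction `(v, 1)` -/
def FlowAt (S : Set (W × ℝ)) (p : W × ℝ) : Prop :=
  ∃ v : W, ∃ r > 0, ∀ (q : W × ℝ) (τ : ℝ), ‖q - p‖ < r → |τ| < r →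
    (q + τ • ((v, (1:ℝ)) : W × ℝ) ∈ S ↔ q ∈ S)

theorem FlowAt.invAt {w : W} (h : FlowAt S (w, 0)) : ∃ v, ∃ r > 0, InvAt S w v r := by
  obtain ⟨v, r, hr, h⟩ := h
  refine ⟨v, r / 3, by linarith, fun w' z' τ h1 h2 h3 => ?_⟩
  have e1 : ‖(w', z') - (w, (0:ℝ))‖ < r := by
    rw [Prod.norm_def, max_lt_iff]
    constructor
    · show ‖w' - w‖ < r
      linarith
    · show ‖z' - 0‖ < r
      rw [sub_zero, Real.norm_eq_abs]
      linarith
  have e2 : |τ| < r := by
    have : τ = (z' + τ) - z' := by ring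
    rw [this]
    exact (abs_sub _ _).trans_lt (by linarith)
  have e3 : (w', z') + τ • ((v, (1:ℝ)) : W × ℝ) = (w' + τ • v, z' + τ) := by
    ext1
    · rfl
    · show z' + τ * 1 = z' + τ
      ring
  have := h (w', z') τ e1 e2
  rw [e3] at this
  exact this.symm

/-- vertical translation -/
def vtrans (a : ℝ) : ConHomeo (univ : Set (W × ℝ)) (univ : Set (W × ℝ)) where
  toFun := fun p => (p.1, p.2 + a)
  invFun := fun p => (p.1, p.2 - a)
  mapsTo := fun _ _ => mem_univ _
  mapsTo_inv := fun _ _ => mem_univ _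
  left_inv := fun p _ => by
    show (p.1, p.2 + a - a) = p
    rw [add_sub_cancel_right]
  right_inv := fun p _ => by
    show (p.1, p.2 - a + a) = p
    rw [sub_add_cancel]
  cont := by fun_prop
  cont_inv := by fun_prop
  conical := conicalOn_fst.prodMk (conicalOn_snd.add
    (conicalOn_const a (IsOpen.conicalSet isOpen_univ)))

/-- **straightening of the level `a`** -/
theorem exists_level_at [ProperSpace W] (hN : ConicalOn (fun w : W => ‖w‖) univ)
    (hS : IsCompact S) (a : ℝ) {g : W → ℝ}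
    (g0 : ∀ w, 0 ≤ g w) (g1 : ∀ w, g w ≤ 1) (gc : Continuous g)
    (gz : ∀ p, g p = 0 → ∃ r > 0, ∀ w, ‖w - p‖ < r → g w = ‖w - p‖)
    (hcone : ∀ p, g p = 0 → LocConeAt S (p, a))
    (hflow : ∀ w, g w ≠ 0 → (w, a) ∈ S → FlowAt S (w, a)) :
    ∃ T : ConHomeo (univ : Set (W × ℝ)) (univ : Set (W × ℝ)), LevelPres T ∧
      (∀ w, T.toFun (w, a) = (w, a)) ∧
      ∃ δ > 0, ∀ w z, |z - a| ≤ δ * g w → (T.toFun (w, z) ∈ S ↔ (w, a) ∈ S) := by
  set S' : Set (W × ℝ) := {p | (p.1, p.2 + a) ∈ S} with hS'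
  have hmem : ∀ w z, (w, z) ∈ S' ↔ (w, z + a) ∈ S := fun w z => Iff.rfl
  have hcomp : IsCompact S' := by
    have h1 : S' = (fun p : W × ℝ => (p.1, p.2 - a)) '' S := by
      ext p
      constructor
      · intro hp
        exact ⟨(p.1, p.2 + a), hp, by simp⟩
      · rintro ⟨q, hq, rfl⟩
        show (q.1, q.2 - a + a) ∈ S
        rwa [sub_add_cancel]
    rw [h1]
    exact hS.image (by fun_prop)
  obtain ⟨Φ, δ, hδ, hΦ1, hΦ2, hΦ3⟩ := exists_level hN hcomp g0 g1 gc gz
    (fun p hp => by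
      obtain ⟨r, hr, h⟩ := hcone p hp
      refine ⟨r, hr, fun v hv t ht => ?_⟩
      have := h v hv t ht
      have e1 : ∀ u : W × ℝ, ((p, (0:ℝ)) + u ∈ S' ↔ (p, a) + u ∈ S) := by
        intro u
        show (p + u.1, 0 + u.2 + a) ∈ S ↔ (p + u.1, a + u.2) ∈ S
        rw [zero_add, add_comm u.2 a]
      rw [e1, e1]
      exact this)
    (fun w hw hmem' => by
      have h1 : (w, a) ∈ S := by
        have := (hmem w 0).1 hmem'
        rwa [zero_add] at this
      refine FlowAt.invAt ?_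
      obtain ⟨v, r, hr, h⟩ := hflow w hw h1
      refine ⟨v, r, hr, fun q τ hq hτ => ?_⟩
      have h2 := h (q.1, q.2 + a) τ (by
        have : ((q.1, q.2 + a) : W × ℝ) - (w, a) = q - (w, 0) := by
          ext1
          · rfl
          · show q.2 + a - a = q.2 - 0
            ring
        rw [this]; exact hq) hτ
      have h3 : ((q.1, q.2 + a) : W × ℝ) + τ • ((v, (1:ℝ)) : W × ℝ) =
          ((q + τ • ((v, (1:ℝ)) : W × ℝ)).1, (q + τ • ((v, (1:ℝ)) : W × ℝ)).2 + a) := by
        ext1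
        · rfl
        · show q.2 + a + τ * 1 = q.2 + τ * 1 + a
          ring
      rw [h3] at h2
      exact h2)
  have key : ∀ w z, (((vtrans a).symm.trans Φ).trans (vtrans a)).toFun (w, z) =
      ((Φ.toFun (w, z - a)).1, z) := by
    intro w z
    show ((Φ.toFun (w, z - a)).1, (Φ.toFun (w, z - a)).2 + a) = _
    rw [hΦ1]
    simp
  refine ⟨((vtrans a).symm.trans Φ).trans (vtrans a), fun p => ?_, fun w => ?_, δ, hδ,
    fun w z hz => ?_⟩
  · have := key p.1 p.2
    rw [show ((p.1, p.2) : W × ℝ) = p from rfl] at this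
    rw [this]
  · rw [key, sub_self, hΦ2]
  · have h1 := hΦ3 w (z - a) hz
    have h2 : Φ.toFun (w, z - a) = ((Φ.toFun (w, z - a)).1, z - a) := Prod.ext rfl (hΦ1 _)
    rw [h2, hmem, hmem, sub_add_cancel, zero_add] at h1
    rw [key]
    exact h1

/-- **(R)** regular level -/
theorem exists_regular [ProperSpace W] (hN : ConicalOn (fun w : W => ‖w‖) univ)
    (hS : IsCompact S) (a : ℝ) (hflow : ∀ w, (w, a) ∈ S → FlowAt S (w, a)) :
    ∃ T : ConHomeo (univ : Set (W × ℝ)) (univ : Set (W × ℝ)), LevelPres T ∧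
      (∀ w, T.toFun (w, a) = (w, a)) ∧
      ∃ δ > 0, ∀ w z, |z - a| ≤ δ → (T.toFun (w, z) ∈ S ↔ (w, a) ∈ S) := by
  obtain ⟨T, h1, h2, δ, hδ, h3⟩ := exists_level_at hN hS a (g := fun _ => 1)
    (fun _ => zero_le_one) (fun _ => le_rfl) continuous_const
    (fun p hp => absurd hp one_ne_zero) (fun p hp => absurd hp one_ne_zero)
    (fun w _ hw => hflow w hw)
  exact ⟨T, h1, h2, δ, hδ, fun w z hz => h3 w z (by rwa [mul_one])⟩

/-- **(V)** level with one vertex -/
theorem exists_vertex [ProperSpace W] (hN : ConicalOn (fun w : W => ‖w‖) univ)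
    (hS : IsCompact S) (a : ℝ) (w0 : W) (hcone : LocConeAt S (w0, a))
    (hflow : ∀ w, w ≠ w0 → (w, a) ∈ S → FlowAt S (w, a)) :
    ∃ T : ConHomeo (univ : Set (W × ℝ)) (univ : Set (W × ℝ)), LevelPres T ∧
      (∀ w, T.toFun (w, a) = (w, a)) ∧
      ∃ δ > 0, ∃ η > 0, ∀ w z, |z - a| ≤ δ → |z - a| ≤ η * ‖w - w0‖ →
        (T.toFun (w, z) ∈ S ↔ (w, a) ∈ S) := by
  have hz : ∀ p, min 1 ‖p - w0‖ = 0 ↔ p = w0 := by
    intro p
    constructor
    · intro h
      by_contra hne
      have h1 : 0 < ‖p - w0‖ := norm_pos_iff.2 (sub_ne_zero.2 hne)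
      have h2 : 0 < min 1 ‖p - w0‖ := lt_min one_pos h1
      exact h2.ne' h
    · rintro rfl
      simp
  obtain ⟨T, h1, h2, δ, hδ, h3⟩ := exists_level_at hN hS a (g := fun w => min 1 ‖w - w0‖)
    (fun _ => le_min zero_le_one (norm_nonneg _)) (fun _ => min_le_left _ _) (by fun_prop)
    (fun p hp => by
      have := (hz p).1 hp
      subst this
      exact ⟨1, one_pos, fun w hw => min_eq_right hw.le⟩)
    (fun p hp => by
      have := (hz p).1 hp
      subst this
      exact hcone)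
    (fun w hw hmem => hflow w (fun h => hw ((hz w).2 h)) hmem)
  refine ⟨T, h1, h2, δ, hδ, δ, hδ, fun w z k1 k2 => h3 w z ?_⟩
  show |z - a| ≤ δ * min 1 ‖w - w0‖
  rcases le_total 1 ‖w - w0‖ with h | h
  · rw [min_eq_left h, mul_one]; exact k1
  · rw [min_eq_right h]; exact k2

end P073.H225
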