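import Vale.Agent.P073.H225.Comp

/-!
# P073: the norms of `ℝ`, of products and of `Fin m → ℝ` are conical
-/

open Set Metric Topology Filter

namespace P073.H225

theorem conicalOn_norm_real : ConicalOn (fun x : ℝ => ‖x‖) univ := by
  have h : ConicalOn (fun x : ℝ => x) univ := conicalOn_id (IsOpen.conicalSet isOpen_univ)
  have := h.rmax h.neg (by fun_prop) (by fun_prop)
  refine this.congr fun x _ => ?_
  rw [Real.norm_eq_abs]
  exact abs_eq_max_neg

theorem conicalOn_norm_prod {E F : Type*} [NormedAddCommGroup E] [NormedSpace ℝ E]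
    [NormedAddCommGroup F] [NormedSpace ℝ F] (hE : ConicalOn (fun x : E => ‖x‖) univ)
    (hF : ConicalOn (fun x : F => ‖x‖) univ) : ConicalOn (fun x : E × F => ‖x‖) univ := by
  have h1 : ConicalOn (fun p : E × F => p.1) univ :=
    conicalOn_linear (LinearMap.fst ℝ E F) (IsOpen.conicalSet isOpen_univ)
  have h2 : ConicalOn (fun p : E × F => p.2) univ :=
    conicalOn_linear (LinearMap.snd ℝ E F) (IsOpen.conicalSet isOpen_univ)
  exact (ConicalOn.comp_univ hE h1 continuous_fst).rmax
    (ConicalOn.comp_univ hF h2 continuous_snd) (by fun_prop) (by fun_prop)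

/-- the plane `ℝ × ℝ` -/
theorem conicalOn_norm_P : ConicalOn (fun x : ℝ × ℝ => ‖x‖) univ :=
  conicalOn_norm_prod conicalOn_norm_real conicalOn_norm_real

/-- space `(ℝ × ℝ) × ℝ` -/
theorem conicalOn_norm_V : ConicalOn (fun x : (ℝ × ℝ) × ℝ => ‖x‖) univ :=
  conicalOn_norm_prod conicalOn_norm_P conicalOn_norm_real

end P073.H225
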