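import Vale.Agent.P073.ConHomeo

/-!
# P073: level preserving conical homeomorphisms: slices, reparametrisation of the height, composition
over a chain of slabs
-/

set_option linter.unusedSectionVars false

open Set Metric Topology Filter

namespace P073.H225

variable {W : Type*} [NormedAddCommGroup W] [NormedSpace ℝ W]

/-- level preserving -/
def LevelPres (F : ConHomeo (univ : Set (W × ℝ)) (univ : Set (W × ℝ))) : Prop :=
  ∀ p, (F.toFun p).2 = p.2

theorem levelPres_refl : LevelPres (ConHomeo.refl
    (IsOpen.conicalSet (isOpen_univ (X := W × ℝ)))) := fun _ => rfl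

theorem LevelPres.inv {F : ConHomeo (univ : Set (W × ℝ)) (univ : Set (W × ℝ))}
    (hF : LevelPres F) : LevelPres F.symm := by
  intro p
  have := hF (F.invFun p)
  rw [F.right_inv (mem_univ p)] at this
  exact this.symm

theorem LevelPres.trans {F G : ConHomeo (univ : Set (W × ℝ)) (univ : Set (W × ℝ))}
    (hF : LevelPres F) (hG : LevelPres G) : LevelPres (F.trans G) := by
  intro p
  show (G.toFun (F.toFun p)).2 = p.2
  rw [hG, hF]

theorem conicalOn_fst : ConicalOn (fun p : W × ℝ => p.1) univ :=
  conicalOn_linear (LinearMap.fst ℝ W ℝ) (IsOpen.conicalSet isOpen_univ)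

theorem conicalOn_snd : ConicalOn (fun p : W × ℝ => p.2) univ :=
  conicalOn_linear (LinearMap.snd ℝ W ℝ) (IsOpen.conicalSet isOpen_univ)

theorem ConicalOn.comp_univ {E F G : Type*} [NormedAddCommGroup E] [NormedSpace ℝ E]
    [NormedAddCommGroup F] [NormedSpace ℝ F] [NormedAddCommGroup G] [NormedSpace ℝ G]
    {g : F → G} {h : E → F} (hg : ConicalOn g univ) (hh : ConicalOn h univ)
    (hc : Continuous h) : ConicalOn (fun x => g (h x)) univ :=
  hg.comp hh (fun _ _ => mem_univ _) hc.continuousOn

/-- the map `F` with height reparametrised by `χ` -/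
def reparam (F : ConHomeo (univ : Set (W × ℝ)) (univ : Set (W × ℝ))) (hF : LevelPres F)
    (χ : ℝ → ℝ) (hχ : Continuous χ) (hχ' : ConicalOn χ univ) :
    ConHomeo (univ : Set (W × ℝ)) (univ : Set (W × ℝ)) where
  toFun := fun p => ((F.toFun (p.1, χ p.2)).1, p.2)
  invFun := fun p => ((F.invFun (p.1, χ p.2)).1, p.2)
  mapsTo := fun _ _ => mem_univ _
  mapsTo_inv := fun _ _ => mem_univ _
  left_inv := fun p _ => by
    have h1 : ((F.toFun (p.1, χ p.2)).1, χ p.2) = F.toFun (p.1, χ p.2) :=
      Prod.ext rfl (hF (p.1, χ p.2)).symm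
    ext1
    · show (F.invFun ((F.toFun (p.1, χ p.2)).1, χ p.2)).1 = p.1
      rw [h1, F.left_inv (mem_univ _)]
    · rfl
  right_inv := fun p _ => by
    have h1 : ((F.invFun (p.1, χ p.2)).1, χ p.2) = F.invFun (p.1, χ p.2) :=
      Prod.ext rfl (hF.inv (p.1, χ p.2)).symm
    ext1
    · show (F.toFun ((F.invFun (p.1, χ p.2)).1, χ p.2)).1 = p.1
      rw [h1, F.right_inv (mem_univ _)]
    · rfl
  cont := by
    have hc : Continuous F.toFun := continuousOn_univ.1 F.cont
    fun_prop
  cont_inv := by
    have hc : Continuous F.invFun := continuousOn_univ.1 F.cont_inv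
    fun_prop
  conical := by
    have hc : Continuous F.toFun := continuousOn_univ.1 F.cont
    have h1 : ConicalOn (fun p : W × ℝ => χ p.2) univ :=
      ConicalOn.comp_univ hχ' conicalOn_snd continuous_snd
    have h2 : ConicalOn (fun p : W × ℝ => (p.1, χ p.2)) univ := conicalOn_fst.prodMk h1
    have h3 : ConicalOn (fun p : W × ℝ => F.toFun (p.1, χ p.2)) univ :=
      ConicalOn.comp_univ F.conical h2 (by fun_prop)
    have h4 : ConicalOn (fun p : W × ℝ => (F.toFun (p.1, χ p.2)).1) univ :=
      h3.linear_comp (LinearMap.fst ℝ W ℝ)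
    exact h4.prodMk conicalOn_snd

theorem reparam_toFun (F : ConHomeo (univ : Set (W × ℝ)) (univ : Set (W × ℝ)))
    (hF : LevelPres F) (χ : ℝ → ℝ) (hχ : Continuous χ) (hχ' : ConicalOn χ univ) (p : W × ℝ) :
    (reparam F hF χ hχ hχ').toFun p = ((F.toFun (p.1, χ p.2)).1, p.2) := rfl

theorem levelPres_reparam (F : ConHomeo (univ : Set (W × ℝ)) (univ : Set (W × ℝ)))
    (hF : LevelPres F) (χ : ℝ → ℝ) (hχ : Continuous χ) (hχ' : ConicalOn χ univ) :
    LevelPres (reparam F hF χ hχ hχ') := fun _ => rfl

/-- the slice of a level preserving homeomorphism at height `c` -/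
def slice (F : ConHomeo (univ : Set (W × ℝ)) (univ : Set (W × ℝ))) (hF : LevelPres F) (c : ℝ) :
    ConHomeo (univ : Set W) (univ : Set W) where
  toFun := fun w => (F.toFun (w, c)).1
  invFun := fun w => (F.invFun (w, c)).1
  mapsTo := fun _ _ => mem_univ _
  mapsTo_inv := fun _ _ => mem_univ _
  left_inv := fun w _ => by
    have h1 : ((F.toFun (w, c)).1, c) = F.toFun (w, c) :=
      Prod.ext rfl (hF (w, c)).symm
    show (F.invFun ((F.toFun (w, c)).1, c)).1 = w
    rw [h1, F.left_inv (mem_univ _)]
  right_inv := fun w _ => by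
    have h1 : ((F.invFun (w, c)).1, c) = F.invFun (w, c) :=
      Prod.ext rfl (hF.inv (w, c)).symm
    show (F.toFun ((F.invFun (w, c)).1, c)).1 = w
    rw [h1, F.right_inv (mem_univ _)]
  cont := by
    have hc : Continuous F.toFun := continuousOn_univ.1 F.cont
    fun_prop
  cont_inv := by
    have hc : Continuous F.invFun := continuousOn_univ.1 F.cont_inv
    fun_prop
  conical := by
    have h1 : ConicalOn (fun w : W => (w, c)) univ :=
      (conicalOn_id (IsOpen.conicalSet isOpen_univ)).prodMk
        (conicalOn_const c (IsOpen.conicalSet isOpen_univ))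
    have h3 : ConicalOn (fun w : W => F.toFun (w, c)) univ :=
      ConicalOn.comp_univ F.conical h1 (by fun_prop)
    exact h3.linear_comp (LinearMap.fst ℝ W ℝ)

theorem slice_toFun (F : ConHomeo (univ : Set (W × ℝ)) (univ : Set (W × ℝ)))
    (hF : LevelPres F) (c : ℝ) (w : W) :
    (slice F hF c).toFun w = (F.toFun (w, c)).1 := rfl

/-- one more slab: `G` is the identity below `b`, moves like `F` between `b` and `b'` and is
constant in `z` above `b'` -/
theorem exists_step (F : ConHomeo (univ : Set (W × ℝ)) (univ : Set (W × ℝ)))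
    (hF : LevelPres F) {b b' : ℝ} (hb : b ≤ b') :
    ∃ (G : ConHomeo (univ : Set (W × ℝ)) (univ : Set (W × ℝ)))
      (k l : ConHomeo (univ : Set W) (univ : Set W)), LevelPres G ∧
      (∀ w z, z ≤ b → G.toFun (w, z) = (w, z)) ∧
      (∀ w z, b ≤ z → z ≤ b' → G.toFun (w, z) = F.toFun (k.toFun w, z)) ∧
      (∀ w z, b' ≤ z → G.toFun (w, z) = (l.toFun w, z)) := by
  have hclamp : ConicalOn (fun z : ℝ => max b (min z b')) univ := by
    have h1 : ConicalOn (fun _ : ℝ => b) univ := conicalOn_const _ (IsOpen.conicalSet isOpen_univ)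
    have h2 : ConicalOn (fun _ : ℝ => b') univ :=
      conicalOn_const _ (IsOpen.conicalSet isOpen_univ)
    have h3 : ConicalOn (fun z : ℝ => z) univ := conicalOn_id (IsOpen.conicalSet isOpen_univ)
    exact h1.rmax (h3.rmin h2 (by fun_prop) (by fun_prop)) (by fun_prop) (by fun_prop)
  have hcb : ConicalOn (fun _ : ℝ => b) univ :=
    conicalOn_const _ (IsOpen.conicalSet isOpen_univ)
  let A := reparam F hF (fun z => max b (min z b')) (by fun_prop) hclamp
  let B := reparam F hF (fun _ => b) (by fun_prop) hcb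
  have hA : LevelPres A := levelPres_reparam _ _ _ _ _
  have hB : LevelPres B := levelPres_reparam _ _ _ _ _
  have key : ∀ w z, (B.symm.trans A).toFun (w, z) =
      ((F.toFun ((F.invFun (w, b)).1, max b (min z b'))).1, z) := fun w z => rfl
  refine ⟨B.symm.trans A, (slice F hF b).symm, (slice F hF b).symm.trans (slice F hF b'),
    hB.inv.trans hA, fun w z hz => ?_, fun w z hz hz' => ?_, fun w z hz => ?_⟩
  · rw [key, max_eq_left ((min_le_left _ _).trans hz)]
    have := (slice F hF b).right_inv (mem_univ w)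
    exact Prod.ext this rfl
  · rw [key, min_eq_left hz', max_eq_right hz]
    exact Prod.ext rfl (hF ((F.invFun (w, b)).1, z)).symm
  · rw [key, min_eq_right hz, max_eq_right hb]
    rfl

theorem mono_of_steps {n : ℕ} {b : ℕ → ℝ} (hb : ∀ i < n, b i ≤ b (i + 1)) {i j : ℕ}
    (hij : i ≤ j) (hj : j ≤ n) : b i ≤ b j := by
  induction j, hij using Nat.le_induction with
  | base => exact le_rfl
  | succ j _ ih => exact (ih (by omega)).trans (hb j (by omega))

/-- **composition over a chain of slabs** -/
theorem exists_comp (n : ℕ) (b : ℕ → ℝ) (hb : ∀ i < n, b i ≤ b (i + 1))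
    (F : ℕ → ConHomeo (univ : Set (W × ℝ)) (univ : Set (W × ℝ)))
    (hF : ∀ i < n, LevelPres (F i)) :
    ∃ (T : ConHomeo (univ : Set (W × ℝ)) (univ : Set (W × ℝ)))
      (h : ℕ → ConHomeo (univ : Set W) (univ : Set W)), LevelPres T ∧
      (∀ w z, z ≤ b 0 → T.toFun (w, z) = (w, z)) ∧
      (∀ i < n, ∀ w z, b i ≤ z → z ≤ b (i + 1) → T.toFun (w, z) = (F i).toFun ((h i).toFun w, z)) ∧
      (∀ w z, b n ≤ z → T.toFun (w, z) = ((h n).toFun w, z)) := by
  induction n with
  | zero =>
    exact ⟨ConHomeo.refl (IsOpen.conicalSet isOpen_univ),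
      fun _ => ConHomeo.refl (IsOpen.conicalSet isOpen_univ), levelPres_refl,
      fun _ _ _ => rfl, fun i hi => absurd hi (Nat.not_lt_zero _), fun _ _ _ => rfl⟩
  | succ n ih =>
    obtain ⟨T, h, hT, h1, h2, h3⟩ := ih (fun i hi => hb i (by omega)) fun i hi => hF i (by omega)
    obtain ⟨G, k, l, hG, g1, g2, g3⟩ := exists_step (F n) (hF n (by omega)) (hb n (by omega))
    have hmono : ∀ i ≤ n, b i ≤ b n := fun i hi => mono_of_steps hb hi (by omega)
    refine ⟨T.trans G, fun i => if i < n then h i else if i = n then (h n).trans k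
      else (h n).trans l, hT.trans hG, fun w z hz => ?_, fun i hi w z hz hz' => ?_,
      fun w z hz => ?_⟩
    · show G.toFun (T.toFun (w, z)) = _
      rw [h1 w z hz, g1 w z (hz.trans (hmono 0 (Nat.zero_le _)))]
    · show G.toFun (T.toFun (w, z)) = _
      rcases Nat.lt_or_ge i n with hin | hin
      · simp only [if_pos hin]
        have e1 := h2 i hin w z hz hz'
        have e2 : T.toFun (w, z) = ((T.toFun (w, z)).1, z) := Prod.ext rfl (hT _)
        rw [e2, g1 _ z (hz'.trans (hmono (i + 1) (by omega))), ← e2, e1]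
      · have : i = n := by omega
        subst this
        simp only [lt_irrefl, if_false, if_true]
        rw [h3 w z hz, g2 _ z hz hz']
        rfl
    · show G.toFun (T.toFun (w, z)) = _
      have hn : b n ≤ z := (hb n (by omega)).trans hz
      rw [h3 w z hn, g3 _ z hz]
      have e1 : ¬ (n + 1 < n) := by omega
      have e2 : ¬ (n + 1 = n) := by omega
      simp only [if_neg e1, if_neg e2]
      rfl

end P073.H225
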