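import Vale.Agent.P073.ConHomeo

/-!
# P073: small Lipschitz perturbations of the identity (fibrewise) are conical homeomorphisms
-/

open Set Metric Topology Filter
open scoped NNReal

namespace P073.H225

variable {W Z : Type*} [NormedAddCommGroup W] [NormedSpace ℝ W] [CompleteSpace W]
  [NormedAddCommGroup Z] [NormedSpace ℝ Z] [CompleteSpace Z]

omit [NormedSpace ℝ W] in
/-- a Lipschitz perturbation of the identity with constant `< 1` is a bijection -/
theorem exists_inverse (g : W → W) {K : ℝ} (hK0 : 0 ≤ K) (hK : K < 1)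
    (hg : ∀ w w', ‖g w - g w'‖ ≤ K * ‖w - w'‖) :
    ∃ k : W → W, (∀ w, k (w + g w) = w) ∧ (∀ w, k w + g (k w) = w) := by
  have hcontr : ∀ y : W, ContractingWith ⟨K, hK0⟩ (fun w => y - g w) := by
    intro y
    refine ⟨by exact_mod_cast hK, LipschitzWith.of_dist_le_mul fun a b => ?_⟩
    rw [dist_eq_norm, dist_eq_norm]
    have : y - g a - (y - g b) = -(g a - g b) := by abel
    rw [this, norm_neg]
    exact hg a b
  have hfix : ∀ y : W, ∃ w, y - g w = w := by
    intro y
    have : Nonempty W := ⟨0⟩
    exact ⟨_, (hcontr y).fixedPoint_isFixedPt⟩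
  choose k hk using hfix
  have hinj : ∀ a b : W, a + g a = b + g b → a = b := by
    intro a b hab
    by_contra hne
    have h1 : a - b = g b - g a := by
      rw [sub_eq_sub_iff_add_eq_add]; rw [hab]; abel
    have h2 := hg b a
    rw [← h1, norm_sub_rev b a] at h2
    have h3 : 0 < ‖a - b‖ := norm_pos_iff.2 (sub_ne_zero.2 hne)
    nlinarith
  refine ⟨k, fun w => hinj _ _ ?_, fun w => ?_⟩
  · have := hk (w + g w)
    rw [sub_eq_iff_eq_add] at this
    exact this.symm
  · have := hk w
    rw [sub_eq_iff_eq_add] at this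
    exact this.symm

/-- fibrewise small Lipschitz perturbation of the identity -/
theorem exists_conHomeo_fiber (G : W × Z → W) {K L : ℝ} (hK0 : 0 ≤ K) (hK : K < 1)
    (hw : ∀ w w' z, ‖G (w, z) - G (w', z)‖ ≤ K * ‖w - w'‖)
    (hz : ∀ w z z', ‖G (w, z) - G (w, z')‖ ≤ L * ‖z - z'‖) (hc : ConicalOn G univ) :
    ∃ Φ : ConHomeo (univ : Set (W × Z)) (univ : Set (W × Z)),
      ∀ p, Φ.toFun p = (p.1 + G p, p.2) := by
  have hex : ∀ z : Z, ∃ k : W → W, (∀ w, k (w + G (w, z)) = w) ∧
      (∀ w, k w + G (k w, z) = w) := fun z =>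
    exists_inverse (fun w => G (w, z)) hK0 hK (fun w w' => hw w w' z)
  choose k hk1 hk2 using hex
  have hGc : Continuous G := by
    have hL : LipschitzWith (Real.toNNReal (K + |L|)) G := by
      refine LipschitzWith.of_dist_le_mul fun p q => ?_
      rw [dist_eq_norm, Real.coe_toNNReal _ (by positivity)]
      have h1 : G p - G q = (G (p.1, p.2) - G (q.1, p.2)) + (G (q.1, p.2) - G (q.1, q.2)) := by
        abel
      rw [h1]
      have h2 : ‖p.1 - q.1‖ ≤ dist p q := by
        rw [dist_eq_norm]; exact norm_fst_le (p - q)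
      have h3 : ‖p.2 - q.2‖ ≤ dist p q := by
        rw [dist_eq_norm]; exact norm_snd_le (p - q)
      calc _ ≤ ‖G (p.1, p.2) - G (q.1, p.2)‖ + ‖G (q.1, p.2) - G (q.1, q.2)‖ := norm_add_le _ _
        _ ≤ K * ‖p.1 - q.1‖ + L * ‖p.2 - q.2‖ := add_le_add (hw _ _ _) (hz _ _ _)
        _ ≤ K * dist p q + |L| * dist p q := by
            gcongr
            exact le_abs_self L
        _ = _ := by ring
    exact hL.continuous
  -- Lipschitz estimate for the inverse
  have hinv : ∀ (w w' : W) (z z' : Z),
      (1 - K) * ‖k z w - k z' w'‖ ≤ ‖w - w'‖ + |L| * ‖z - z'‖ := by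
    intro w w' z z'
    have e1 := hk2 z w
    have e2 := hk2 z' w'
    have h1 : k z w - k z' w' = (w - w') - (G (k z w, z) - G (k z' w', z)) -
        (G (k z' w', z) - G (k z' w', z')) := by
      calc k z w - k z' w' = (k z w + G (k z w, z)) - (k z' w' + G (k z' w', z')) -
            (G (k z w, z) - G (k z' w', z)) - (G (k z' w', z) - G (k z' w', z')) := by abel
        _ = _ := by rw [e1, e2]
    have h2 : ‖k z w - k z' w'‖ ≤ ‖w - w'‖ + K * ‖k z w - k z' w'‖ + |L| * ‖z - z'‖ := by
      calc ‖k z w - k z' w'‖ = ‖(w - w') - (G (k z w, z) - G (k z' w', z)) -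
            (G (k z' w', z) - G (k z' w', z'))‖ := by rw [← h1]
        _ ≤ ‖(w - w') - (G (k z w, z) - G (k z' w', z))‖ +
            ‖G (k z' w', z) - G (k z' w', z')‖ := norm_sub_le _ _
        _ ≤ ‖w - w'‖ + ‖G (k z w, z) - G (k z' w', z)‖ +
            ‖G (k z' w', z) - G (k z' w', z')‖ := by gcongr; exact norm_sub_le _ _
        _ ≤ ‖w - w'‖ + K * ‖k z w - k z' w'‖ + L * ‖z - z'‖ := by
            gcongr
            · exact hw _ _ _
            · exact hz _ _ _
        _ ≤ _ := by gcongr; exact le_abs_self L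
    linarith
  have hkc : Continuous (fun p : W × Z => k p.2 p.1) := by
    have hL : LipschitzWith (Real.toNNReal ((1 + |L|) / (1 - K)))
        (fun p : W × Z => k p.2 p.1) := by
      have h1K : 0 < 1 - K := by linarith
      refine LipschitzWith.of_dist_le_mul fun p q => ?_
      rw [dist_eq_norm, Real.coe_toNNReal _ (by positivity)]
      have h2 : ‖p.1 - q.1‖ ≤ dist p q := by
        rw [dist_eq_norm]; exact norm_fst_le (p - q)
      have h3 : ‖p.2 - q.2‖ ≤ dist p q := by
        rw [dist_eq_norm]; exact norm_snd_le (p - q)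
      have h4 := hinv p.1 q.1 p.2 q.2
      rw [div_mul_eq_mul_div, le_div_iff₀ h1K]
      calc ‖k p.2 p.1 - k q.2 q.1‖ * (1 - K) ≤ ‖p.1 - q.1‖ + |L| * ‖p.2 - q.2‖ := by
            rw [mul_comm]; exact h4
        _ ≤ dist p q + |L| * dist p q := by gcongr
        _ = _ := by ring
    exact hL.continuous
  have hid1 : ConicalOn (fun p : W × Z => p.1) univ :=
    conicalOn_linear (LinearMap.fst ℝ W Z) (IsOpen.conicalSet isOpen_univ)
  have hid2 : ConicalOn (fun p : W × Z => p.2) univ :=
    conicalOn_linear (LinearMap.snd ℝ W Z) (IsOpen.conicalSet isOpen_univ)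
  refine ⟨{ toFun := fun p => (p.1 + G p, p.2)
            invFun := fun p => (k p.2 p.1, p.2)
            mapsTo := fun _ _ => mem_univ _
            mapsTo_inv := fun _ _ => mem_univ _
            left_inv := fun p _ => by
              have := hk1 p.2 p.1
              ext1
              · exact this
              · rfl
            right_inv := fun p _ => by
              have := hk2 p.2 p.1
              ext1
              · exact this
              · rfl
            cont := by fun_prop
            cont_inv := (hkc.prodMk continuous_snd).continuousOn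
            conical := (hid1.add hc).prodMk hid2 }, fun p => rfl⟩

end P073.H225
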