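import Vale.Agent.P073.H225.Split
import Vale.Agent.P073.H225.Comp

/-!
# P073: good bump functions and the straightening of one level
-/

set_option linter.unusedSectionVars false

open Set Metric Topology Filter
open scoped NNReal

namespace P073.H225

variable {W : Type*} [NormedAddCommGroup W] [NormedSpace ℝ W] {S : Set (W × ℝ)} {g : W → ℝ}

/-- local invariance of `S` in direction `(v, 1)` around `(w, 0)`, radius `r` -/
def InvAt (S : Set (W × ℝ)) (w v : W) (r : ℝ) : Prop :=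
  ∀ (w' : W) (z' τ : ℝ), ‖w' - w‖ ≤ r → |z'| ≤ r → |z' + τ| ≤ r →
    ((w', z') ∈ S ↔ (w' + τ • v, z' + τ) ∈ S)

theorem InvAt.mono {w v : W} {r r' : ℝ} (h : InvAt S w v r) (hr : r' ≤ r) : InvAt S w v r' :=
  fun w' z' τ h1 h2 h3 => h w' z' τ (h1.trans hr) (h2.trans hr) (h3.trans hr)

theorem InvAt.recentre {w u v : W} {r r' : ℝ} (h : InvAt S w v r) (hw : ‖u - w‖ + r' ≤ r) :
    InvAt S u v r' := by
  intro w' z' τ h1 h2 h3
  have h0 : 0 ≤ ‖u - w‖ := norm_nonneg _
  refine h w' z' τ ?_ (by linarith) (by linarith)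
  have : w' - w = (w' - u) + (u - w) := by abel
  rw [this]
  exact (norm_add_le _ _).trans (by linarith)

/-- `S` is far from `(w, 0)` at scale `r` -/
def FarAt (S : Set (W × ℝ)) (w : W) (r : ℝ) : Prop :=
  ∀ (w' : W) (z' : ℝ), ‖w' - w‖ ≤ r → |z'| ≤ r → (w', z') ∉ S

theorem FarAt.mono {w : W} {r r' : ℝ} (h : FarAt S w r) (hr : r' ≤ r) : FarAt S w r' :=
  fun w' z' h1 h2 => h w' z' (h1.trans hr) (h2.trans hr)

theorem FarAt.recentre {w u : W} {r r' : ℝ} (h : FarAt S w r) (hw : ‖u - w‖ + r' ≤ r) :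
    FarAt S u r' := by
  intro w' z' h1 h2
  have h0 : 0 ≤ ‖u - w‖ := norm_nonneg _
  refine h w' z' ?_ (by linarith)
  have : w' - w = (w' - u) + (u - w) := by abel
  rw [this]
  exact (norm_add_le _ _).trans (by linarith)

/-- a bump function adapted to the direction `v` -/
structure Good (S : Set (W × ℝ)) (g : W → ℝ) (μ : W → ℝ) (v : W) : Prop where
  nonneg : ∀ w, 0 ≤ μ w
  conical : ConicalOn μ univ
  lip : ∃ L : ℝ≥0, LipschitzWith L μ
  bd : ∃ K : ℝ, ∀ w, μ w ≤ K * g w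
  inv : ∃ η > 0, ∀ w, 0 < μ w → InvAt S w v (η * g w)

theorem exists_pos_le (n : ℕ) (f : ℕ → ℝ) (hf : ∀ k < n, 0 < f k) :
    ∃ η > 0, ∀ k < n, η ≤ f k := by
  induction n with
  | zero => exact ⟨1, one_pos, fun k hk => absurd hk (Nat.not_lt_zero _)⟩
  | succ n ih =>
    obtain ⟨η, h1, h2⟩ := ih fun k hk => hf k (by omega)
    refine ⟨min η (f n), lt_min h1 (hf n (by omega)), fun k hk => ?_⟩
    rcases Nat.lt_or_ge k n with h | h
    · exact (min_le_left _ _).trans (h2 k h)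
    · rw [show k = n by omega]; exact min_le_right _ _

theorem exists_ge_all (n : ℕ) (f : ℕ → ℝ) : ∃ M : ℝ, 0 ≤ M ∧ ∀ k < n, f k ≤ M := by
  refine ⟨∑ k ∈ Finset.range n, |f k|, Finset.sum_nonneg fun _ _ => abs_nonneg _,
    fun k hk => (le_abs_self _).trans ?_⟩
  exact Finset.single_le_sum (f := fun k => |f k|) (fun _ _ => abs_nonneg _)
    (Finset.mem_range.2 hk)

theorem disp_zero (lam : ℕ → W → ℝ) (v : ℕ → W) (n : ℕ) (w : W) : disp lam v n (w, 0) = 0 := by
  unfold disp slot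
  simp

/-- straightening of the level `0` from a finite family of good bump functions -/
theorem exists_level_of_good [CompleteSpace W] (hg : ∀ w, 0 ≤ g w) {n : ℕ}
    {μ : ℕ → W → ℝ} {v : ℕ → W} (hgood : ∀ k < n, Good S g (μ k) (v k)) {κ : ℝ} (hκ : 0 < κ)
    (hcov : ∀ w, κ * g w ≤ ∑ k ∈ Finset.range n, μ k w ∨ FarAt S w (κ * g w)) :
    ∃ (Φ : ConHomeo (univ : Set (W × ℝ)) (univ : Set (W × ℝ))) (δ : ℝ), 0 < δ ∧
      LevelPres Φ ∧ (∀ w, Φ.toFun (w, 0) = (w, 0)) ∧
      ∀ w z, |z| ≤ δ * g w → (Φ.toFun (w, z) ∈ S ↔ (w, (0:ℝ)) ∈ S) := by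
  classical
  have hL : ∀ k, ∃ L : ℝ, k < n → ∀ w w', |μ k w - μ k w'| ≤ L * ‖w - w'‖ := by
    intro k
    by_cases hk : k < n
    · obtain ⟨L, hL⟩ := (hgood k hk).lip
      refine ⟨L, fun _ w w' => ?_⟩
      have := hL.dist_le_mul w w'
      rwa [Real.dist_eq, dist_eq_norm] at this
    · exact ⟨0, fun h => absurd h hk⟩
  have hK : ∀ k, ∃ K : ℝ, k < n → ∀ w, μ k w ≤ K * g w := by
    intro k
    by_cases hk : k < n
    · obtain ⟨K, hK⟩ := (hgood k hk).bd
      exact ⟨K, fun _ => hK⟩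
    · exact ⟨0, fun h => absurd h hk⟩
  have hη : ∀ k, ∃ η : ℝ, k < n → 0 < η ∧ ∀ w, 0 < μ k w → InvAt S w (v k) (η * g w) := by
    intro k
    by_cases hk : k < n
    · obtain ⟨η, h1, h2⟩ := (hgood k hk).inv
      exact ⟨η, fun _ => ⟨h1, h2⟩⟩
    · exact ⟨0, fun h => absurd h hk⟩
  choose Lf hLf using hL
  choose Kf hKf using hK
  choose ηf hηf using hη
  obtain ⟨L, hL0, hL⟩ := exists_ge_all n Lf
  obtain ⟨K, hK0, hK⟩ := exists_ge_all n Kf
  obtain ⟨C, hC0, hC⟩ := exists_ge_all n fun k => ‖v k‖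
  obtain ⟨η, hη0, hη⟩ := exists_pos_le n ηf fun k hk => (hηf k hk).1
  -- the small parameter
  obtain ⟨ε, hε0, hε1, hε2⟩ : ∃ ε > 0, 2 * (n:ℝ) ^ 2 * (ε * L) * C < 1 ∧
      ε * ((1 + C) * (n * K)) ≤ min η κ := by
    set D : ℝ := 2 * (n:ℝ) ^ 2 * L * C + (1 + C) * (n * K) / min η κ + 1 with hD
    have hmin : 0 < min η κ := lt_min hη0 hκ
    have hD1 : 0 ≤ 2 * (n:ℝ) ^ 2 * L * C := by positivity
    have hD2 : 0 ≤ (1 + C) * (n * K) / min η κ := by positivity
    have hD0 : 0 < D := by linarith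
    refine ⟨1 / D, by positivity, ?_, ?_⟩
    · have : 2 * (n:ℝ) ^ 2 * (1 / D * L) * C = (2 * (n:ℝ) ^ 2 * L * C) / D := by ring
      rw [this, div_lt_one hD0]
      linarith
    · rw [div_mul_eq_mul_div, one_mul, div_le_iff₀ hD0]
      have : (1 + C) * (n * K) = min η κ * ((1 + C) * (n * K) / min η κ) := by
        field_simp
      rw [this]
      exact mul_le_mul_of_nonneg_left (by linarith) hmin.le
  let lam : ℕ → W → ℝ := fun k w => if k < n then ε * μ k w else 0
  have hlam : ∀ k < n, ∀ w, lam k w = ε * μ k w := fun k hk w => if_pos hk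
  have hlam0 : ∀ k w, 0 ≤ lam k w := by
    intro k w
    by_cases hk : k < n
    · rw [hlam k hk]; exact mul_nonneg hε0.le ((hgood k hk).nonneg w)
    · exact (if_neg hk).ge
  have hpsum : ∀ w, psum lam n w = ε * ∑ k ∈ Finset.range n, μ k w := by
    intro w
    unfold psum
    rw [Finset.mul_sum]
    exact Finset.sum_congr rfl fun k hk => hlam k (Finset.mem_range.1 hk) w
  have hpsum_le : ∀ w, psum lam n w ≤ ε * (n * K) * g w := by
    intro w
    rw [hpsum]
    have : ∑ k ∈ Finset.range n, μ k w ≤ ∑ k ∈ Finset.range n, K * g w := by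
      refine Finset.sum_le_sum fun k hk => ?_
      have hk' := Finset.mem_range.1 hk
      exact (hKf k hk' w).trans (mul_le_mul_of_nonneg_right (hK k hk') (hg w))
    rw [Finset.sum_const, Finset.card_range, nsmul_eq_mul] at this
    calc ε * ∑ k ∈ Finset.range n, μ k w ≤ ε * (n * (K * g w)) :=
          mul_le_mul_of_nonneg_left this hε0.le
      _ = _ := by ring
  have hb1 : ∀ w, psum lam n w ≤ min η κ * g w := by
    intro w
    refine (hpsum_le w).trans (mul_le_mul_of_nonneg_right (le_trans ?_ hε2) (hg w))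
    have : 0 ≤ ε * (C * (n * K)) := by positivity
    nlinarith
  have hb2 : ∀ w, C * psum lam n w ≤ min η κ * g w := by
    intro w
    calc C * psum lam n w ≤ C * (ε * (n * K) * g w) :=
          mul_le_mul_of_nonneg_left (hpsum_le w) hC0
      _ = (ε * (C * (n * K))) * g w := by ring
      _ ≤ _ := by
        refine mul_le_mul_of_nonneg_right (le_trans ?_ hε2) (hg w)
        have : 0 ≤ ε * (n * K) := by positivity
        nlinarith
  obtain ⟨Φ, hΦ, hΦ'⟩ := exists_split (S := S) (lam := lam) (v := v) (C := C) (ε := ε * L)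
    (n := n) hlam0 (by positivity) hC0 hC
    (fun k hk => ((hgood k hk).conical.const_smul ε).congr fun w _ => hlam k hk w)
    (fun k hk w w' => by
      rw [hlam k hk, hlam k hk, ← mul_sub, abs_mul, abs_of_pos hε0, mul_assoc]
      exact mul_le_mul_of_nonneg_left ((hLf k hk w w').trans
        (mul_le_mul_of_nonneg_right (hL k hk) (norm_nonneg _))) hε0.le)
    hε1
    (fun w k hk hpos w' z' τ h1 h2 h3 => by
      have hpos' : 0 < μ k w := by
        rw [hlam k hk] at hpos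
        exact (mul_pos_iff_of_pos_left hε0).1 hpos
      have hle : min η κ * g w ≤ ηf k * g w :=
        mul_le_mul_of_nonneg_right ((min_le_left _ _).trans (hη k hk)) (hg w)
      exact (hηf k hk).2 w hpos' w' z' τ (h1.trans ((hb2 w).trans hle))
        (h2.trans ((hb1 w).trans hle)) (h3.trans ((hb1 w).trans hle)))
  refine ⟨Φ, min (ε * κ) κ, lt_min (by positivity) hκ, fun p => by rw [hΦ],
    fun w => by rw [hΦ, disp_zero, add_zero], fun w z hz => ?_⟩
  rcases hcov w with h | h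
  · refine hΦ' w z (hz.trans ?_)
    rw [hpsum]
    calc min (ε * κ) κ * g w ≤ ε * κ * g w :=
          mul_le_mul_of_nonneg_right (min_le_left _ _) (hg w)
      _ = ε * (κ * g w) := by ring
      _ ≤ _ := mul_le_mul_of_nonneg_left h hε0.le
  · have h1 : (w, (0:ℝ)) ∉ S := h w 0 (by
      rw [sub_self, norm_zero]; exact mul_nonneg hκ.le (hg w)) (by
      rw [abs_zero]; exact mul_nonneg hκ.le (hg w))
    have h2 : Φ.toFun (w, z) ∉ S := by
      rw [hΦ]
      refine h _ _ ?_ ?_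
      · show ‖w + disp lam v n (w, z) - w‖ ≤ _
        rw [add_sub_cancel_left]
        refine (norm_disp_le hlam0 hC le_rfl _).trans ((hb2 w).trans ?_)
        exact mul_le_mul_of_nonneg_right (min_le_right _ _) (hg w)
      · exact hz.trans (mul_le_mul_of_nonneg_right (min_le_right _ _) (hg w))
    exact iff_of_false h2 h1

end P073.H225
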