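import Vale.Agent.P073.H225.Good

/-!
# P073: straightening of one level: local bump functions and compactness
-/

set_option linter.unusedSectionVars false

open Set Metric Topology Filter
open scoped NNReal

namespace P073.H225

variable {W : Type*} [NormedAddCommGroup W] [NormedSpace ℝ W] {S : Set (W × ℝ)} {g : W → ℝ}

/-- `A` is covered by finitely many good bump functions -/
def Cov (S : Set (W × ℝ)) (g : W → ℝ) (A : Set W) : Prop :=
  ∃ (n : ℕ) (μ : ℕ → W → ℝ) (v : ℕ → W) (κ : ℝ), 0 < κ ∧ (∀ k < n, Good S g (μ k) (v k)) ∧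
    ∀ w ∈ A, κ * g w ≤ ∑ k ∈ Finset.range n, μ k w ∨ FarAt S w (κ * g w)

theorem Cov.mono {A B : Set W} (h : Cov S g B) (hAB : A ⊆ B) : Cov S g A := by
  obtain ⟨n, μ, v, κ, h0, h1, h2⟩ := h
  exact ⟨n, μ, v, κ, h0, h1, fun w hw => h2 w (hAB hw)⟩

theorem cov_empty : Cov S g ∅ :=
  ⟨0, fun _ _ => 0, fun _ => 0, 1, one_pos, fun _ hk => absurd hk (Nat.not_lt_zero _),
    fun w hw => absurd hw (notMem_empty w)⟩

theorem Cov.union (hg : ∀ w, 0 ≤ g w) {A B : Set W} (hA : Cov S g A) (hB : Cov S g B) :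
    Cov S g (A ∪ B) := by
  obtain ⟨n, μ, v, κ, h0, h1, h2⟩ := hA
  obtain ⟨m, μ', v', κ', h0', h1', h2'⟩ := hB
  have hsum : ∀ w, ∑ k ∈ Finset.range (n + m), (if k < n then μ k else μ' (k - n)) w =
      ∑ k ∈ Finset.range n, μ k w + ∑ k ∈ Finset.range m, μ' k w := by
    intro w
    rw [Finset.sum_range_add]
    congr 1
    · exact Finset.sum_congr rfl fun k hk => by rw [if_pos (Finset.mem_range.1 hk)]
    · refine Finset.sum_congr rfl fun k _ => ?_
      rw [if_neg (by omega), Nat.add_sub_cancel_left]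
  refine ⟨n + m, fun k => if k < n then μ k else μ' (k - n),
    fun k => if k < n then v k else v' (k - n), min κ κ', lt_min h0 h0', fun k hk => ?_,
    fun w hw => ?_⟩
  · by_cases h : k < n
    · simp only [if_pos h]; exact h1 k h
    · simp only [if_neg h]; exact h1' (k - n) (by omega)
  · have p1 : 0 ≤ ∑ k ∈ Finset.range n, μ k w :=
      Finset.sum_nonneg fun k hk => (h1 k (Finset.mem_range.1 hk)).nonneg w
    have p2 : 0 ≤ ∑ k ∈ Finset.range m, μ' k w :=
      Finset.sum_nonneg fun k hk => (h1' k (Finset.mem_range.1 hk)).nonneg w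
    have m1 : min κ κ' * g w ≤ κ * g w := mul_le_mul_of_nonneg_right (min_le_left _ _) (hg w)
    have m2 : min κ κ' * g w ≤ κ' * g w := mul_le_mul_of_nonneg_right (min_le_right _ _) (hg w)
    rw [hsum]
    rcases hw with hw | hw
    · rcases h2 w hw with h | h
      · left; linarith
      · right; exact h.mono m1
    · rcases h2' w hw with h | h
      · left; linarith
      · right; exact h.mono m2

theorem lipschitzWith_bump (w0 : W) (r : ℝ) :
    LipschitzWith 1 (fun w : W => max 0 (r - ‖w - w0‖)) := by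
  have h : LipschitzWith 1 (fun w : W => r - ‖w - w0‖) := by
    refine LipschitzWith.of_dist_le_mul fun a b => ?_
    rw [Real.dist_eq, dist_eq_norm, NNReal.coe_one, one_mul]
    have : r - ‖a - w0‖ - (r - ‖b - w0‖) = -(‖a - w0‖ - ‖b - w0‖) := by ring
    rw [this, abs_neg]
    refine (abs_norm_sub_norm_le _ _).trans (le_of_eq ?_)
    congr 1; abel
  exact h.const_max 0

theorem conicalOn_sub_const (w0 : W) : ConicalOn (fun w : W => w - w0) univ :=
  (conicalOn_id (IsOpen.conicalSet isOpen_univ)).sub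
    (conicalOn_const w0 (IsOpen.conicalSet isOpen_univ))

theorem conicalOn_norm_sub (hN : ConicalOn (fun w : W => ‖w‖) univ) (w0 : W) :
    ConicalOn (fun w : W => ‖w - w0‖) univ :=
  ConicalOn.comp_univ hN (conicalOn_sub_const w0) (by fun_prop)

theorem conicalOn_bump (hN : ConicalOn (fun w : W => ‖w‖) univ) (w0 : W) (r : ℝ) :
    ConicalOn (fun w : W => max 0 (r - ‖w - w0‖)) univ := by
  have h0 : ConicalOn (fun _ : W => (0:ℝ)) univ :=
    conicalOn_const _ (IsOpen.conicalSet isOpen_univ)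
  have hr : ConicalOn (fun _ : W => r) univ :=
    conicalOn_const _ (IsOpen.conicalSet isOpen_univ)
  exact h0.rmax (hr.sub (conicalOn_norm_sub hN w0)) (by fun_prop) (by fun_prop)

/-- near a point where `g > 0` there is a good bump -/
theorem cov_regular (hN : ConicalOn (fun w : W => ‖w‖) univ) (hS : IsClosed S)
    (g0 : ∀ w, 0 ≤ g w) (g1 : ∀ w, g w ≤ 1) (gc : Continuous g)
    {w0 : W} (hw0 : g w0 ≠ 0) (hr : (w0, (0:ℝ)) ∈ S → ∃ v, ∃ r > 0, InvAt S w0 v r) :
    ∃ A ∈ 𝓝 w0, Cov S g A := by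
  by_cases hmem : (w0, (0:ℝ)) ∈ S
  · obtain ⟨v, r, hr0, hinv⟩ := hr hmem
    have hpos : 0 < g w0 := lt_of_le_of_ne (g0 w0) (Ne.symm hw0)
    have hev : ∀ᶠ w in 𝓝 w0, g w0 / 2 < g w := gc.continuousAt.eventually
      (lt_mem_nhds (half_lt_self hpos))
    obtain ⟨r1, hr1, hb⟩ := Metric.eventually_nhds_iff_ball.1 hev
    set ρ : ℝ := min (r / 2) r1 with hρ
    have hρ0 : 0 < ρ := lt_min (by linarith) hr1
    have hsupp : ∀ w, 0 < max 0 (ρ - ‖w - w0‖) → ‖w - w0‖ < ρ := by
      intro w hw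
      by_contra h
      rw [max_eq_left (by linarith [not_lt.1 h])] at hw
      exact lt_irrefl _ hw
    have hgood : Good S g (fun w => max 0 (ρ - ‖w - w0‖)) v := by
      refine ⟨fun w => le_max_left _ _, conicalOn_bump hN w0 ρ, ⟨1, lipschitzWith_bump w0 ρ⟩,
        ⟨2 * ρ / g w0, fun w => ?_⟩, ⟨ρ, hρ0, fun w hw => ?_⟩⟩
      · by_cases h : ‖w - w0‖ < ρ
        · have h1 : g w0 / 2 < g w := hb w (by
            rw [mem_ball, dist_eq_norm]; exact h.trans_le (min_le_right _ _))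
          have h2 : max 0 (ρ - ‖w - w0‖) ≤ ρ := max_le hρ0.le (by linarith [norm_nonneg (w - w0)])
          refine h2.trans ?_
          rw [div_mul_eq_mul_div, le_div_iff₀ hpos]
          nlinarith
        · show max 0 (ρ - ‖w - w0‖) ≤ _
          rw [max_eq_left (by linarith [not_lt.1 h])]
          exact mul_nonneg (by positivity) (g0 w)
      · refine hinv.recentre ?_
        have h1 := hsupp w hw
        have h2 : ρ * g w ≤ ρ := mul_le_of_le_one_right hρ0.le (g1 w)
        have h3 : ρ ≤ r / 2 := min_le_left _ _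
        linarith
    refine ⟨ball w0 (ρ / 2), ball_mem_nhds _ (by linarith), 1, fun _ => fun w => max 0 (ρ - ‖w - w0‖),
      fun _ => v, ρ / 2, by linarith, fun k _ => hgood, fun w hw => Or.inl ?_⟩
    rw [Finset.sum_range_one]
    rw [mem_ball, dist_eq_norm] at hw
    refine le_trans ?_ (le_max_right _ _)
    have : ρ / 2 * g w ≤ ρ / 2 := mul_le_of_le_one_right (by linarith) (g1 w)
    linarith
  · have hnhds : Sᶜ ∈ 𝓝 (w0, (0:ℝ)) := hS.isOpen_compl.mem_nhds hmem
    obtain ⟨r, hr0, hb⟩ := Metric.nhds_basis_closedBall.mem_iff.1 hnhds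
    have hfar : FarAt S w0 r := by
      intro w' z' h1 h2
      refine hb ?_
      rw [mem_closedBall, Prod.dist_eq, max_le_iff]
      exact ⟨by rw [dist_eq_norm]; exact h1, by rw [Real.dist_eq, sub_zero]; exact h2⟩
    refine ⟨ball w0 (r / 2), ball_mem_nhds _ (by linarith), 0, fun _ _ => 0, fun _ => 0, r / 2,
      by linarith, fun k hk => absurd hk (Nat.not_lt_zero _), fun w hw => Or.inr ?_⟩
    refine hfar.recentre ?_
    rw [mem_ball, dist_eq_norm] at hw
    have : r / 2 * g w ≤ r / 2 := mul_le_of_le_one_right (by linarith) (g1 w)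
    linarith

/-! ### vertices -/

/-- homogeneous bump around the direction `u0` (norm `ρ`) at the origin, cut off at radius `ρ` -/
noncomputable def hbump (ρ r : ℝ) (p u0 : W) (w : W) : ℝ :=
  min (max 0 (r * ‖w - p‖ - ‖ρ • (w - p) - ‖w - p‖ • u0‖)) (max 0 (ρ - ‖w - p‖))

theorem hbump_nonneg (ρ r : ℝ) (p u0 w : W) : 0 ≤ hbump ρ r p u0 w :=
  le_min (le_max_left _ _) (le_max_left _ _)

theorem conicalOn_hbump (hN : ConicalOn (fun w : W => ‖w‖) univ) (ρ r : ℝ) (p u0 : W) :
    ConicalOn (hbump ρ r p u0) univ := by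
  have h0 : ConicalOn (fun _ : W => (0:ℝ)) univ :=
    conicalOn_const _ (IsOpen.conicalSet isOpen_univ)
  have h1 := conicalOn_norm_sub hN p
  have h2 : ConicalOn (fun w : W => r * ‖w - p‖) univ := h1.const_smul r
  have h3 : ConicalOn (fun w : W => ‖w - p‖ • u0) univ :=
    h1.linear_comp (LinearMap.toSpanSingleton ℝ W u0)
  have h4 : ConicalOn (fun w : W => ρ • (w - p)) univ := (conicalOn_sub_const p).const_smul ρ
  have h5 : ConicalOn (fun w : W => ‖ρ • (w - p) - ‖w - p‖ • u0‖) univ :=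
    ConicalOn.comp_univ hN (h4.sub h3) (by fun_prop)
  have h6 := h0.rmax (h2.sub h5) (by fun_prop) (by fun_prop)
  exact h6.rmin (conicalOn_bump hN p ρ) (by fun_prop) (by fun_prop)

theorem exists_lip_hbump {ρ r : ℝ} (hρ : 0 ≤ ρ) (hr : 0 ≤ r) (p u0 : W) :
    ∃ L : ℝ≥0, LipschitzWith L (hbump ρ r p u0) := by
  have h : LipschitzWith (Real.toNNReal (r + (ρ + ‖u0‖)))
      (fun w : W => r * ‖w - p‖ - ‖ρ • (w - p) - ‖w - p‖ • u0‖) := by
    refine LipschitzWith.of_dist_le_mul fun a b => ?_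
    rw [Real.dist_eq, dist_eq_norm, Real.coe_toNNReal _ (by positivity)]
    have e0 : |‖a - p‖ - ‖b - p‖| ≤ ‖a - b‖ := by
      refine (abs_norm_sub_norm_le _ _).trans (le_of_eq ?_)
      congr 1; abel
    have e1 : |‖ρ • (a - p) - ‖a - p‖ • u0‖ - ‖ρ • (b - p) - ‖b - p‖ • u0‖| ≤
        (ρ + ‖u0‖) * ‖a - b‖ := by
      refine (abs_norm_sub_norm_le _ _).trans ?_
      have : ρ • (a - p) - ‖a - p‖ • u0 - (ρ • (b - p) - ‖b - p‖ • u0) =
          ρ • (a - b) - (‖a - p‖ - ‖b - p‖) • u0 := by module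
      rw [this]
      refine (norm_sub_le _ _).trans ?_
      rw [norm_smul, norm_smul, Real.norm_of_nonneg hρ, Real.norm_eq_abs, add_mul]
      have := mul_le_mul_of_nonneg_right e0 (norm_nonneg u0)
      linarith [mul_comm ‖u0‖ ‖a - b‖]
    have e2 : r * ‖a - p‖ - ‖ρ • (a - p) - ‖a - p‖ • u0‖ -
        (r * ‖b - p‖ - ‖ρ • (b - p) - ‖b - p‖ • u0‖) = r * (‖a - p‖ - ‖b - p‖) -
        (‖ρ • (a - p) - ‖a - p‖ • u0‖ - ‖ρ • (b - p) - ‖b - p‖ • u0‖) := by ring
    rw [e2, add_mul]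
    refine (abs_sub _ _).trans (add_le_add ?_ e1)
    rw [abs_mul, abs_of_nonneg hr]
    exact mul_le_mul_of_nonneg_left e0 hr
  exact ⟨_, (h.const_max 0).min (lipschitzWith_bump p ρ)⟩

end P073.H225
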