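import Vale.Agent.P073.ALXG.Sweep
import Vale.Agent.P073.H225.RV
import Vale.Agent.P073.H225.NormP

/-!
# P073: `SpecR` and `SpecV` of `ALXG/Sweep.lean`
-/

open Set Metric Topology Filter

namespace P073.H225

variable {W : Type*} [NormedAddCommGroup W] [NormedSpace ℝ W] {S : Set (W × ℝ)}

theorem specR [ProperSpace W] (hN : ConicalOn (fun w : W => ‖w‖) univ) (hS : IsCompact S) :
    ALXG.SpecR S := fun a hflow => exists_regular hN hS a hflow

theorem specV [ProperSpace W] (hN : ConicalOn (fun w : W => ‖w‖) univ) (hS : IsCompact S)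
    (hL : LocCone S) : ALXG.SpecV S := fun a w₀ hflow =>
  exists_vertex hN hS a w₀ (hL (w₀, a)) hflow

theorem specR_P {S : Set ((ℝ × ℝ) × ℝ)} (hS : IsCompact S) : ALXG.SpecR S :=
  specR conicalOn_norm_P hS

theorem specV_P {S : Set ((ℝ × ℝ) × ℝ)} (hS : IsCompact S) (hL : LocCone S) :
    ALXG.SpecV S := specV conicalOn_norm_P hS hL

end P073.H225
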