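import Vale.Agent.P073.H225.Fiber

/-!
# P073: the time splitting map

`F (w, z) = (w + ∑ k, z_k (w, z) • v k, z)` where `z_k (w, z)` is the (signed) time spent in the slot
`[s_k (w), s_k (w) + lam_k (w)]`. If `S` is locally invariant under `(v k, 1)` near the points where
`lam k > 0`, then `F ⁻¹ S` has vertical walls in `|z| ≤ ∑ lam k`.
-/

set_option linter.unusedSectionVars false
set_option linter.unusedVariables false

open Set Metric Topology Filter

namespace P073.H225

variable {W : Type*} [NormedAddCommGroup W] [NormedSpace ℝ W]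

/-- the signed time spent in the slot `[s, s + l]` up to time `z` (an odd function of `z`) -/
noncomputable def slot (s l z : ℝ) : ℝ := max 0 (min (z - s) l) - max 0 (min (-z - s) l)

/-- partial sums of the time functions -/
noncomputable def psum (lam : ℕ → W → ℝ) (k : ℕ) (w : W) : ℝ := ∑ j ∈ Finset.range k, lam j w

/-- displacement after the first `k` slots -/
noncomputable def disp (lam : ℕ → W → ℝ) (v : ℕ → W) (k : ℕ) (p : W × ℝ) : W :=
  ∑ j ∈ Finset.range k, slot (psum lam j p.1) (lam j p.1) p.2 • v j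

theorem abs_slot_le {s l z : ℝ} (hl : 0 ≤ l) (hs : 0 ≤ s) : |slot s l z| ≤ l := by
  unfold slot
  rw [abs_le]
  have h1 : max 0 (min (z - s) l) ≤ l := max_le hl (min_le_right _ _)
  have h2 : max 0 (min (-z - s) l) ≤ l := max_le hl (min_le_right _ _)
  have h3 : 0 ≤ max 0 (min (z - s) l) := le_max_left _ _
  have h4 : 0 ≤ max 0 (min (-z - s) l) := le_max_left _ _
  constructor <;> linarith

theorem slot_add {s l z : ℝ} (hl : 0 ≤ l) (hs : 0 ≤ s) :
    slot 0 s z + slot s l z = slot 0 (s + l) z := by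
  have key : ∀ y : ℝ, max 0 (min (y - 0) s) + max 0 (min (y - s) l) =
      max 0 (min (y - 0) (s + l)) := by
    intro y
    rcases le_total y 0 with h0 | h0
    · rw [min_eq_left (by linarith), min_eq_left (by linarith), min_eq_left (by linarith),
        max_eq_left (by linarith), max_eq_left (by linarith)]
      simp
    · rcases le_total y s with h1 | h1
      · rw [min_eq_left (by linarith), min_eq_left (by linarith), min_eq_left (by linarith),
          max_eq_right (by linarith), max_eq_left (by linarith)]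
        simp
      · rcases le_total y (s + l) with h2 | h2
        · rw [min_eq_right (by linarith), min_eq_left (by linarith), min_eq_left (by linarith),
            max_eq_right (by linarith), max_eq_right (by linarith), max_eq_right (by linarith)]
          ring
        · rw [min_eq_right (by linarith), min_eq_right (by linarith), min_eq_right (by linarith),
            max_eq_right (by linarith), max_eq_right (by linarith), max_eq_right (by linarith)]
  unfold slot
  rw [← key z, ← key (-z)]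
  ring

theorem slot_zero_of_le {s z : ℝ} (hz : |z| ≤ s) : slot 0 s z = z := by
  unfold slot
  obtain ⟨h1, h2⟩ := abs_le.1 hz
  rw [min_eq_left (by linarith), min_eq_left (by linarith)]
  rcases le_total z 0 with h0 | h0
  · rw [max_eq_left (by linarith), max_eq_right (by linarith)]; ring
  · rw [max_eq_right (by linarith), max_eq_left (by linarith)]; ring

theorem psum_nonneg {lam : ℕ → W → ℝ} (h0 : ∀ k w, 0 ≤ lam k w) (k : ℕ) (w : W) :
    0 ≤ psum lam k w := Finset.sum_nonneg fun j _ => h0 j w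

theorem psum_mono {lam : ℕ → W → ℝ} (h0 : ∀ k w, 0 ≤ lam k w) {k n : ℕ} (h : k ≤ n) (w : W) :
    psum lam k w ≤ psum lam n w :=
  Finset.sum_le_sum_of_subset_of_nonneg (Finset.range_mono h) fun j _ _ => h0 j w

theorem psum_succ (lam : ℕ → W → ℝ) (k : ℕ) (w : W) :
    psum lam (k + 1) w = psum lam k w + lam k w := Finset.sum_range_succ _ _

theorem norm_disp_le {lam : ℕ → W → ℝ} {v : ℕ → W} {C : ℝ} (h0 : ∀ k w, 0 ≤ lam k w)
    {n : ℕ} (hC : ∀ k < n, ‖v k‖ ≤ C) {k : ℕ} (hk : k ≤ n) (p : W × ℝ) :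
    ‖disp lam v k p‖ ≤ C * psum lam k p.1 := by
  unfold disp psum
  rw [Finset.mul_sum]
  refine (norm_sum_le _ _).trans (Finset.sum_le_sum fun j hj => ?_)
  rw [norm_smul, Real.norm_eq_abs, mul_comm]
  have hj' : j < n := (Finset.mem_range.1 hj).trans_le hk
  have h1 : |slot (psum lam j p.1) (lam j p.1) p.2| ≤ lam j p.1 :=
    abs_slot_le (h0 _ _) (psum_nonneg h0 _ _)
  exact mul_le_mul (hC j hj') h1 (abs_nonneg _) ((norm_nonneg _).trans (hC j hj'))

/-- **time splitting**: over `|z| ≤ s (w)` the preimage of `S` is vertical -/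
theorem split_iff {S : Set (W × ℝ)} {lam : ℕ → W → ℝ} {v : ℕ → W} {C : ℝ}
    (h0 : ∀ k w, 0 ≤ lam k w) {n : ℕ} (hC : ∀ k < n, ‖v k‖ ≤ C) {w : W}
    (hinv : ∀ k < n, 0 < lam k w → ∀ (w' : W) (z' τ : ℝ), ‖w' - w‖ ≤ C * psum lam n w →
      |z'| ≤ psum lam n w → |z' + τ| ≤ psum lam n w →
      ((w', z') ∈ S ↔ (w' + τ • v k, z' + τ) ∈ S)) {z : ℝ} (hz : |z| ≤ psum lam n w) :
    (w + disp lam v n (w, z), z) ∈ S ↔ (w, (0:ℝ)) ∈ S := by
  have key : ∀ k ≤ n, ((w + disp lam v k (w, z), slot 0 (psum lam k w) z) ∈ S ↔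
      (w, (0:ℝ)) ∈ S) := by
    intro k
    induction k with
    | zero =>
      intro _
      simp [disp, psum, slot]
    | succ k ih =>
      intro hk
      rw [← ih (by omega)]
      have hd : disp lam v (k + 1) (w, z) =
          disp lam v k (w, z) + slot (psum lam k w) (lam k w) z • v k :=
        Finset.sum_range_succ _ _
      rcases (h0 k w).eq_or_lt with h | h
      · have e1 : slot (psum lam k w) (lam k w) z = 0 := by
          have := abs_slot_le (s := psum lam k w) (l := lam k w) (z := z) (h0 k w)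
            (psum_nonneg h0 k w)
          rw [← h] at this ⊢
          exact abs_nonpos_iff.1 this
        rw [hd, e1, psum_succ, ← h, add_zero, zero_smul, add_zero]
      · have e2 : slot 0 (psum lam (k + 1) w) z =
            slot 0 (psum lam k w) z + slot (psum lam k w) (lam k w) z := by
          rw [slot_add (h0 k w) (psum_nonneg h0 k w), psum_succ]
        rw [hd, e2, ← add_assoc]
        refine (hinv k (by omega) h _ _ _ ?_ ?_ ?_).symm
        · rw [add_sub_cancel_left]
          have hC0 : 0 ≤ C := (norm_nonneg _).trans (hC k (by omega))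
          exact (norm_disp_le h0 hC (by omega) _).trans
            (mul_le_mul_of_nonneg_left (psum_mono h0 (by omega) w) hC0)
        · exact (abs_slot_le (psum_nonneg h0 k w) le_rfl).trans (psum_mono h0 (by omega) w)
        · rw [← e2]
          exact (abs_slot_le (psum_nonneg h0 _ w) le_rfl).trans (psum_mono h0 (by omega) w)
  rw [← key n le_rfl, slot_zero_of_le hz]

theorem abs_slot_sub_le {s l s' l' z e : ℝ} (hs : |s - s'| ≤ e) (hl : |l - l'| ≤ e) :
    |slot s l z - slot s' l' z| ≤ 2 * e := by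
  have key : ∀ y : ℝ, |max 0 (min (y - s) l) - max 0 (min (y - s') l')| ≤ e := by
    intro y
    refine (abs_max_sub_max_le_max _ _ _ _).trans (max_le ?_ ?_)
    · simp only [sub_self, abs_zero]; exact (abs_nonneg _).trans hs
    · refine (abs_min_sub_min_le_max _ _ _ _).trans (max_le ?_ hl)
      have : y - s - (y - s') = -(s - s') := by ring
      rw [this, abs_neg]; exact hs
  have h1 := key z
  have h2 := key (-z)
  unfold slot
  have h3 : max 0 (min (z - s) l) - max 0 (min (-z - s) l) -
      (max 0 (min (z - s') l') - max 0 (min (-z - s') l')) =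
      (max 0 (min (z - s) l) - max 0 (min (z - s') l')) -
      (max 0 (min (-z - s) l) - max 0 (min (-z - s') l')) := by ring
  rw [h3]
  refine (abs_sub _ _).trans ?_
  linarith

theorem abs_slot_sub_le' {s l z z' : ℝ} :
    |slot s l z - slot s l z'| ≤ 2 * |z - z'| := by
  have key : ∀ y y' : ℝ, |max 0 (min (y - s) l) - max 0 (min (y' - s) l)| ≤ |y - y'| := by
    intro y y'
    refine (abs_max_sub_max_le_max _ _ _ _).trans (max_le ?_ ?_)
    · simp only [sub_self, abs_zero]; exact abs_nonneg _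
    · refine (abs_min_sub_min_le_max _ _ _ _).trans (max_le ?_ ?_)
      · have : y - s - (y' - s) = y - y' := by ring
        rw [this]
      · simp
  have h1 := key z z'
  have h2 := key (-z) (-z')
  have h4 : |-z - -z'| = |z - z'| := by rw [← abs_neg]; congr 1; ring
  rw [h4] at h2
  unfold slot
  have h3 : max 0 (min (z - s) l) - max 0 (min (-z - s) l) -
      (max 0 (min (z' - s) l) - max 0 (min (-z' - s) l)) =
      (max 0 (min (z - s) l) - max 0 (min (z' - s) l)) -
      (max 0 (min (-z - s) l) - max 0 (min (-z' - s) l)) := by ring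
  rw [h3]
  refine (abs_sub _ _).trans ?_
  linarith

theorem abs_psum_sub_le {lam : ℕ → W → ℝ} {ε : ℝ} {n : ℕ}
    (hL : ∀ k < n, ∀ w w', |lam k w - lam k w'| ≤ ε * ‖w - w'‖) {k : ℕ} (hk : k ≤ n) (w w' : W) :
    |psum lam k w - psum lam k w'| ≤ k * (ε * ‖w - w'‖) := by
  unfold psum
  rw [← Finset.sum_sub_distrib]
  refine (Finset.abs_sum_le_sum_abs _ _).trans ?_
  refine (Finset.sum_le_sum (g := fun _ => ε * ‖w - w'‖) fun j hj =>
    hL j ((Finset.mem_range.1 hj).trans_le hk) w w').trans ?_
  simp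

theorem conicalOn_psum {lam : ℕ → W → ℝ} {n : ℕ} (hc : ∀ k < n, ConicalOn (lam k) univ)
    {k : ℕ} (hk : k ≤ n) : ConicalOn (psum lam k) univ := by
  induction k with
  | zero =>
    have := conicalOn_const (E := W) (0:ℝ) (IsOpen.conicalSet isOpen_univ)
    refine this.congr fun w _ => ?_
    simp [psum]
  | succ k ih =>
    refine ((ih (by omega)).add (hc k (by omega))).congr fun w _ => ?_
    rw [psum_succ]

theorem continuous_of_abs_le {f : W → ℝ} {c : ℝ} (h : ∀ w w', |f w - f w'| ≤ c * ‖w - w'‖) :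
    Continuous f := by
  have hL : LipschitzWith (Real.toNNReal |c|) f := by
    refine LipschitzWith.of_dist_le_mul fun p q => ?_
    rw [Real.dist_eq, Real.coe_toNNReal _ (abs_nonneg _), dist_eq_norm]
    exact (h p q).trans (by gcongr; exact le_abs_self c)
  exact hL.continuous

theorem conicalOn_slot {X : Type*} [NormedAddCommGroup X] [NormedSpace ℝ X] {s l z : X → ℝ}
    (hs : ConicalOn s univ) (hl : ConicalOn l univ) (hz : ConicalOn z univ)
    (hsc : Continuous s) (hlc : Continuous l) (hzc : Continuous z) :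
    ConicalOn (fun p => slot (s p) (l p) (z p)) univ := by
  have h0 : ConicalOn (fun _ : X => (0:ℝ)) univ :=
    conicalOn_const _ (IsOpen.conicalSet isOpen_univ)
  have k1 := h0.rmax ((hz.sub hs).rmin hl (by fun_prop) (by fun_prop)) (by fun_prop)
    (by fun_prop)
  have k2 := h0.rmax ((hz.neg.sub hs).rmin hl (by fun_prop) (by fun_prop)) (by fun_prop)
    (by fun_prop)
  exact k1.sub k2

theorem conicalOn_disp {lam : ℕ → W → ℝ} {v : ℕ → W} {n : ℕ} {ε : ℝ}
    (hc : ∀ k < n, ConicalOn (lam k) univ)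
    (hL : ∀ k < n, ∀ w w', |lam k w - lam k w'| ≤ ε * ‖w - w'‖) {k : ℕ} (hk : k ≤ n) :
    ConicalOn (disp lam v k) univ := by
  induction k with
  | zero =>
    have := conicalOn_const (E := W × ℝ) (0:W) (IsOpen.conicalSet isOpen_univ)
    refine this.congr fun w _ => ?_
    simp [disp]
  | succ k ih =>
    have hfst : ConicalOn (fun p : W × ℝ => p.1) univ :=
      conicalOn_linear (LinearMap.fst ℝ W ℝ) (IsOpen.conicalSet isOpen_univ)
    have hsnd : ConicalOn (fun p : W × ℝ => p.2) univ :=
      conicalOn_linear (LinearMap.snd ℝ W ℝ) (IsOpen.conicalSet isOpen_univ)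
    have c1 : Continuous (psum lam k) :=
      continuous_of_abs_le (c := k * ε) fun w w' => by
        have := abs_psum_sub_le hL (k := k) (by omega) w w'
        rwa [← mul_assoc] at this
    have c2 : Continuous (lam k) := continuous_of_abs_le (hL k (by omega))
    have h1 : ConicalOn (fun p : W × ℝ => psum lam k p.1) univ :=
      (conicalOn_psum hc (by omega)).comp hfst (fun _ _ => mem_univ _) continuous_fst.continuousOn
    have h2 : ConicalOn (fun p : W × ℝ => lam k p.1) univ :=
      (hc k (by omega)).comp hfst (fun _ _ => mem_univ _) continuous_fst.continuousOn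
    have h3 := conicalOn_slot h1 h2 hsnd (by fun_prop) (by fun_prop) (by fun_prop)
    have h4 := h3.linear_comp (LinearMap.toSpanSingleton ℝ W (v k))
    refine ((ih (by omega)).add h4).congr fun p _ => ?_
    unfold disp
    rw [Finset.sum_range_succ]
    rfl

theorem norm_disp_sub_le {lam : ℕ → W → ℝ} {v : ℕ → W} {C ε : ℝ} {n : ℕ} (hε : 0 ≤ ε)
    (hC0 : 0 ≤ C) (hC : ∀ k < n, ‖v k‖ ≤ C)
    (hL : ∀ k < n, ∀ w w', |lam k w - lam k w'| ≤ ε * ‖w - w'‖) (w w' : W) (z : ℝ) :
    ‖disp lam v n (w, z) - disp lam v n (w', z)‖ ≤ (2 * n ^ 2 * ε * C) * ‖w - w'‖ := by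
  unfold disp
  rw [← Finset.sum_sub_distrib]
  refine (norm_sum_le _ _).trans ?_
  have : ∀ j ∈ Finset.range n, ‖slot (psum lam j w) (lam j w) z • v j -
      slot (psum lam j w') (lam j w') z • v j‖ ≤ 2 * n * ε * C * ‖w - w'‖ := by
    intro j hj
    have hj' : j < n := Finset.mem_range.1 hj
    rw [← sub_smul, norm_smul, Real.norm_eq_abs]
    have hn1 : (1:ℝ) ≤ n := by exact_mod_cast (show 1 ≤ n by omega)
    have e1 : |psum lam j w - psum lam j w'| ≤ n * (ε * ‖w - w'‖) :=
      (abs_psum_sub_le hL hj'.le w w').trans (by gcongr)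
    have e2 : |lam j w - lam j w'| ≤ n * (ε * ‖w - w'‖) := by
      refine (hL j hj' w w').trans ?_
      have : 0 ≤ ε * ‖w - w'‖ := by positivity
      nlinarith
    calc |slot (psum lam j w) (lam j w) z - slot (psum lam j w') (lam j w') z| * ‖v j‖
        ≤ (2 * (n * (ε * ‖w - w'‖))) * C :=
          mul_le_mul (abs_slot_sub_le e1 e2) (hC j hj') (norm_nonneg _) (by positivity)
      _ = _ := by ring
  refine (Finset.sum_le_sum this).trans (le_of_eq ?_)
  simp only [Finset.sum_const, Finset.card_range, nsmul_eq_mul]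
  ring

theorem norm_disp_sub_le' {lam : ℕ → W → ℝ} {v : ℕ → W} {C : ℝ} {n : ℕ}
    (hC : ∀ k < n, ‖v k‖ ≤ C) (w : W) (z z' : ℝ) :
    ‖disp lam v n (w, z) - disp lam v n (w, z')‖ ≤ (2 * n * C) * ‖z - z'‖ := by
  unfold disp
  rw [← Finset.sum_sub_distrib]
  refine (norm_sum_le _ _).trans ?_
  have : ∀ j ∈ Finset.range n, ‖slot (psum lam j w) (lam j w) z • v j -
      slot (psum lam j w) (lam j w) z' • v j‖ ≤ 2 * C * ‖z - z'‖ := by
    intro j hj
    have hj' : j < n := Finset.mem_range.1 hj
    rw [← sub_smul, norm_smul, Real.norm_eq_abs]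
    calc |slot (psum lam j w) (lam j w) z - slot (psum lam j w) (lam j w) z'| * ‖v j‖
        ≤ (2 * |z - z'|) * C :=
          mul_le_mul abs_slot_sub_le' (hC j hj') (norm_nonneg _) (by positivity)
      _ = _ := by rw [Real.norm_eq_abs]; ring
  refine (Finset.sum_le_sum this).trans (le_of_eq ?_)
  simp only [Finset.sum_const, Finset.card_range, nsmul_eq_mul]
  ring

/-- **the time splitting homeomorphism** -/
theorem exists_split [CompleteSpace W] {S : Set (W × ℝ)} {lam : ℕ → W → ℝ} {v : ℕ → W} {C ε : ℝ}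
    {n : ℕ} (h0 : ∀ k w, 0 ≤ lam k w) (hε : 0 ≤ ε) (hC0 : 0 ≤ C) (hC : ∀ k < n, ‖v k‖ ≤ C)
    (hc : ∀ k < n, ConicalOn (lam k) univ)
    (hL : ∀ k < n, ∀ w w', |lam k w - lam k w'| ≤ ε * ‖w - w'‖)
    (hsmall : 2 * n ^ 2 * ε * C < 1)
    (hinv : ∀ w, ∀ k < n, 0 < lam k w → ∀ (w' : W) (z' τ : ℝ), ‖w' - w‖ ≤ C * psum lam n w →
      |z'| ≤ psum lam n w → |z' + τ| ≤ psum lam n w →
      ((w', z') ∈ S ↔ (w' + τ • v k, z' + τ) ∈ S)) :
    ∃ Φ : ConHomeo (univ : Set (W × ℝ)) (univ : Set (W × ℝ)),
      (∀ p, Φ.toFun p = (p.1 + disp lam v n p, p.2)) ∧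
      ∀ w z, |z| ≤ psum lam n w → (Φ.toFun (w, z) ∈ S ↔ (w, (0:ℝ)) ∈ S) := by
  obtain ⟨Φ, hΦ⟩ := exists_conHomeo_fiber (disp lam v n) (K := 2 * n ^ 2 * ε * C)
    (L := 2 * n * C) (by positivity) hsmall (fun w w' z => norm_disp_sub_le hε hC0 hC hL w w' z)
    (fun w z z' => norm_disp_sub_le' hC w z z') (conicalOn_disp hc hL le_rfl)
  refine ⟨Φ, hΦ, fun w z hz => ?_⟩
  rw [hΦ]
  exact split_iff h0 hC (hinv w) hz

end P073.H225
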