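import Vale.Agent.P073.H225.Level

/-!
# P073: straightening of one level: the vertices, and the global statement
-/

set_option linter.unusedSectionVars false

open Set Metric Topology Filter
open scoped NNReal

namespace P073.H225

variable {W : Type*} [NormedAddCommGroup W] [NormedSpace ℝ W] {S : Set (W × ℝ)} {g : W → ℝ}

/-- `S` is a cone with vertex `(p, 0)` in the ball of radius `R` -/
def ConeIn (S : Set (W × ℝ)) (p : W) (R : ℝ) : Prop :=
  ∀ v : W × ℝ, ‖v‖ ≤ R → ∀ t ∈ Ioc (0:ℝ) 1, ((p, (0:ℝ)) + t • v ∈ S ↔ (p, (0:ℝ)) + v ∈ S)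

theorem ConeIn.scale {p : W} {R : ℝ} (h : ConeIn S p R) {w : W} {z t : ℝ}
    (ht : t ∈ Ioc (0:ℝ) 1) (hw : ‖w - p‖ ≤ t * R) (hz : |z| ≤ t * R) :
    (w, z) ∈ S ↔ (p + (1 / t) • (w - p), z / t) ∈ S := by
  have ht0 : 0 < t := ht.1
  have h1 := h ((1 / t) • (w - p), z / t) (by
    rw [Prod.norm_mk, max_le_iff]
    constructor
    · rw [norm_smul, Real.norm_of_nonneg (by positivity), one_div, inv_mul_le_iff₀ ht0]
      exact hw
    · rw [Real.norm_eq_abs, abs_div, abs_of_pos ht0, div_le_iff₀ ht0, mul_comm]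
      exact hz) t ht
  have h2 : (p, (0:ℝ)) + t • ((1 / t) • (w - p), z / t) = (w, z) := by
    ext1
    · show p + t • (1 / t) • (w - p) = w
      rw [smul_smul, mul_one_div_cancel ht0.ne', one_smul]; abel
    · show (0:ℝ) + t * (z / t) = z
      field_simp
      ring
  have h3 : (p, (0:ℝ)) + ((1 / t) • (w - p), z / t) = (p + (1 / t) • (w - p), z / t) := by
    ext1
    · rfl
    · show (0:ℝ) + z / t = z / t
      ring
  rw [h2, h3] at h1
  exact h1

theorem ConeIn.invAt {p u v : W} {R r t : ℝ} (h : ConeIn S p R) (hi : InvAt S (p + u) v r)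
    (hr : 0 ≤ r) (hR : ‖u‖ + r * (1 + 2 * ‖v‖) ≤ R) (ht : t ∈ Ioc (0:ℝ) 1) :
    InvAt S (p + t • u) v (t * r) := by
  intro w' z' τ h1 h2 h3
  have ht0 : 0 < t := ht.1
  have hv : 0 ≤ ‖v‖ := norm_nonneg v
  have hu : 0 ≤ ‖u‖ := norm_nonneg u
  have hrv : 0 ≤ r * ‖v‖ := by positivity
  have e1 : ‖w' - p‖ ≤ t * (‖u‖ + r) := by
    have : w' - p = (w' - (p + t • u)) + t • u := by abel
    rw [this]
    refine (norm_add_le _ _).trans ?_
    rw [norm_smul, Real.norm_of_nonneg ht0.le]
    linarith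
  have e2 : |τ| ≤ 2 * (t * r) := by
    have : τ = (z' + τ) - z' := by ring
    rw [this]
    exact (abs_sub _ _).trans (by linarith)
  have e3 : ‖w' + τ • v - p‖ ≤ t * (‖u‖ + r * (1 + 2 * ‖v‖)) := by
    have : w' + τ • v - p = (w' - p) + τ • v := by abel
    rw [this]
    refine (norm_add_le _ _).trans ?_
    rw [norm_smul, Real.norm_eq_abs]
    have := mul_le_mul_of_nonneg_right e2 hv
    nlinarith
  rw [h.scale ht (e1.trans (mul_le_mul_of_nonneg_left (by linarith) ht0.le))
    (h2.trans (mul_le_mul_of_nonneg_left (by linarith) ht0.le)),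
    h.scale (w := w' + τ • v) ht (e3.trans (mul_le_mul_of_nonneg_left hR ht0.le))
    (h3.trans (mul_le_mul_of_nonneg_left (by linarith) ht0.le))]
  have h4 := hi (p + (1 / t) • (w' - p)) (z' / t) (τ / t) (by
    have : p + (1 / t) • (w' - p) - (p + u) = (1 / t) • (w' - (p + t • u)) := by
      have h5 : (1 / t) • t • u = u := by
        rw [smul_smul, one_div_mul_cancel ht0.ne', one_smul]
      have h6 : (1 / t) • (w' - (p + t • u)) = (1 / t) • (w' - p) - (1 / t) • t • u := by
        rw [← smul_sub]; congr 1; abel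
      rw [h6, h5]; abel
    rw [this, norm_smul, Real.norm_of_nonneg (by positivity), one_div, inv_mul_le_iff₀ ht0]
    exact h1) (by
    rw [abs_div, abs_of_pos ht0, div_le_iff₀ ht0, mul_comm]; exact h2) (by
    rw [← add_div, abs_div, abs_of_pos ht0, div_le_iff₀ ht0, mul_comm]; exact h3)
  rw [h4]
  have h7 : p + (1 / t) • (w' - p) + (τ / t) • v = p + (1 / t) • (w' + τ • v - p) := by
    rw [show τ / t = (1 / t) * τ by ring, ← smul_smul, add_assoc, ← smul_add]
    congr 2; abel
  rw [h7, ← add_div]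

theorem ConeIn.farAt {p u : W} {R r t : ℝ} (h : ConeIn S p R) (hi : FarAt S (p + u) r)
    (_hr : 0 ≤ r) (hR : ‖u‖ + r ≤ R) (ht : t ∈ Ioc (0:ℝ) 1) :
    FarAt S (p + t • u) (t * r) := by
  intro w' z' h1 h2
  have ht0 : 0 < t := ht.1
  have hu : 0 ≤ ‖u‖ := norm_nonneg u
  have e1 : ‖w' - p‖ ≤ t * (‖u‖ + r) := by
    have : w' - p = (w' - (p + t • u)) + t • u := by abel
    rw [this]
    refine (norm_add_le _ _).trans ?_
    rw [norm_smul, Real.norm_of_nonneg ht0.le]
    linarith
  rw [h.scale ht (e1.trans (mul_le_mul_of_nonneg_left hR ht0.le))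
    (h2.trans (mul_le_mul_of_nonneg_left (by linarith) ht0.le))]
  refine hi _ _ ?_ ?_
  · have : p + (1 / t) • (w' - p) - (p + u) = (1 / t) • (w' - (p + t • u)) := by
      have h5 : (1 / t) • t • u = u := by
        rw [smul_smul, one_div_mul_cancel ht0.ne', one_smul]
      have h6 : (1 / t) • (w' - (p + t • u)) = (1 / t) • (w' - p) - (1 / t) • t • u := by
        rw [← smul_sub]; congr 1; abel
      rw [h6, h5]; abel
    rw [this, norm_smul, Real.norm_of_nonneg (by positivity), one_div, inv_mul_le_iff₀ ht0]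
    exact h1
  · rw [abs_div, abs_of_pos ht0, div_le_iff₀ ht0, mul_comm]; exact h2

/-- the union of the half segments from `p` in the directions of `A` -/
def halfCone (p : W) (A : Set W) : Set W := {w | ∃ u ∈ A, ∃ t ∈ Icc (0:ℝ) (1 / 2), w = p + t • u}

theorem halfCone_mono (p : W) {A B : Set W} (h : A ⊆ B) : halfCone p A ⊆ halfCone p B := by
  rintro w ⟨u, hu, t, ht, rfl⟩
  exact ⟨u, h hu, t, ht, rfl⟩

theorem halfCone_union (p : W) (A B : Set W) :
    halfCone p (A ∪ B) ⊆ halfCone p A ∪ halfCone p B := by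
  rintro w ⟨u, hu | hu, t, ht, rfl⟩
  · exact Or.inl ⟨u, hu, t, ht, rfl⟩
  · exact Or.inr ⟨u, hu, t, ht, rfl⟩

theorem good_hbump (hN : ConicalOn (fun w : W => ‖w‖) univ) (g0 : ∀ w, 0 ≤ g w) {p u0 v : W}
    {R r ρ : ℝ} (hρ : 0 < ρ) (hr : 0 < r) (_hu0 : ‖u0‖ = ρ) (hcone : ConeIn S p R)
    (hg : ∀ w, ‖w - p‖ < ρ → g w = ‖w - p‖) (hR : ρ + r * (1 + 2 * ‖v‖) ≤ R)
    (hi : InvAt S (p + u0) v (2 * r)) : Good S g (hbump ρ r p u0) v := by
  refine ⟨hbump_nonneg ρ r p u0, conicalOn_hbump hN ρ r p u0, exists_lip_hbump hρ.le hr.le p u0,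
    ⟨r, fun w => ?_⟩, ⟨r / ρ, by positivity, fun w hw => ?_⟩⟩
  · by_cases h : ‖w - p‖ < ρ
    · rw [hg w h]
      refine (min_le_left _ _).trans (max_le (by positivity) ?_)
      linarith [norm_nonneg (ρ • (w - p) - ‖w - p‖ • u0)]
    · refine (min_le_right _ _).trans ?_
      rw [max_eq_left (by linarith [not_lt.1 h])]
      exact mul_nonneg hr.le (g0 w)
  · unfold hbump at hw
    obtain ⟨h1, h2⟩ := lt_min_iff.1 hw
    have h1' : 0 < r * ‖w - p‖ - ‖ρ • (w - p) - ‖w - p‖ • u0‖ := by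
      rcases lt_max_iff.1 h1 with h | h
      · exact absurd h (lt_irrefl _)
      · exact h
    have h2' : 0 < ρ - ‖w - p‖ := by
      rcases lt_max_iff.1 h2 with h | h
      · exact absurd h (lt_irrefl _)
      · exact h
    have hpos : 0 < ‖w - p‖ := by
      have : 0 < r * ‖w - p‖ := by linarith [norm_nonneg (ρ • (w - p) - ‖w - p‖ • u0)]
      exact (mul_pos_iff_of_pos_left hr).1 this
    set t : ℝ := ‖w - p‖ / ρ with ht
    have ht0 : 0 < t := by positivity
    have ht1 : t ≤ 1 := by rw [ht, div_le_one hρ]; linarith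
    set u : W := (1 / t) • (w - p) with hu
    have hwu : w = p + t • u := by
      rw [hu, smul_smul, mul_one_div_cancel ht0.ne', one_smul]; abel
    have hun : ‖u‖ = ρ := by
      rw [hu, norm_smul, Real.norm_of_nonneg (by positivity), ht]
      field_simp
    have hd : ‖u - u0‖ ≤ r := by
      have e1 : u - u0 = (1 / ‖w - p‖) • (ρ • (w - p) - ‖w - p‖ • u0) := by
        rw [smul_sub, smul_smul, smul_smul, one_div_mul_cancel hpos.ne', one_smul, hu, ht]
        congr 2
        field_simp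
      rw [e1, norm_smul, Real.norm_of_nonneg (by positivity), one_div, inv_mul_le_iff₀ hpos]
      linarith
    have hiu : InvAt S (p + u) v r := by
      refine hi.recentre ?_
      have : p + u - (p + u0) = u - u0 := by abel
      rw [this]; linarith
    have := hcone.invAt hiu hr.le (by rw [hun]; exact hR) ⟨ht0, ht1⟩
    rw [← hwu] at this
    refine this.mono (le_of_eq ?_)
    rw [hg w (by linarith), ht]
    field_simp

/-- **vertices** -/
theorem cov_vertex [ProperSpace W] (hN : ConicalOn (fun w : W => ‖w‖) univ) (hS : IsClosed S)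
    (g0 : ∀ w, 0 ≤ g w) {p : W} {r0 : ℝ} (hr0 : 0 < r0)
    (hg : ∀ w, ‖w - p‖ < r0 → g w = ‖w - p‖) (hcone : LocConeAt S (p, 0))
    (hreg : ∀ w, ‖w - p‖ < r0 → w ≠ p → (w, (0:ℝ)) ∈ S → ∃ v, ∃ r > 0, InvAt S w v r) :
    ∃ A ∈ 𝓝 p, Cov S g A := by
  obtain ⟨R, hR0, hR⟩ := hcone
  have hRc : ConeIn S p R := hR
  set ρ : ℝ := min (r0 / 2) (R / 4) with hρd
  have hρ : 0 < ρ := lt_min (by linarith) (by linarith)
  have hρ1 : ρ ≤ r0 / 2 := min_le_left _ _
  have hρ2 : ρ ≤ R / 4 := min_le_right _ _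
  have hgp : g p = 0 := by rw [hg p (by simpa using hr0)]; simp
  have hcov : Cov S g (halfCone p (sphere (0:W) ρ)) := by
    refine (isCompact_sphere (0:W) ρ).induction_on (p := fun A => Cov S g (halfCone p A)) ?_ ?_
      ?_ ?_
    · refine cov_empty.mono ?_
      rintro w ⟨u, hu, _⟩
      exact hu
    · exact fun A B hAB hB => hB.mono (halfCone_mono p hAB)
    · exact fun A B hA hB => (Cov.union g0 hA hB).mono (halfCone_union p A B)
    · intro u0 hu0
      have hu0n : ‖u0‖ = ρ := by simpa using hu0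
      have hgw : ∀ (u : W) (t : ℝ), ‖u‖ = ρ → t ∈ Icc (0:ℝ) (1 / 2) →
          g (p + t • u) = t * ρ ∧ ‖p + t • u - p‖ = t * ρ := by
        intro u t hu ht
        have e1 : ‖p + t • u - p‖ = t * ρ := by
          rw [add_sub_cancel_left, norm_smul, Real.norm_of_nonneg ht.1, hu]
        refine ⟨?_, e1⟩
        rw [hg _ ?_, e1]
        rw [e1]
        have := mul_le_mul_of_nonneg_right ht.2 hρ.le
        linarith
      by_cases hmem : (p + u0, (0:ℝ)) ∈ S
      · obtain ⟨v, r, hr, hinv⟩ := hreg (p + u0) (by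
          rw [add_sub_cancel_left, hu0n]; linarith) (by
          intro h
          rw [add_eq_left] at h
          rw [h, norm_zero] at hu0n
          exact hρ.ne hu0n) hmem
        set r1 : ℝ := min (r / 2) (R / 2 / (1 + 2 * ‖v‖)) with hr1
        have hr1p : 0 < r1 := lt_min (by linarith) (by positivity)
        have hr1a : 2 * r1 ≤ r := by
          have : r1 ≤ r / 2 := min_le_left _ _
          linarith
        have hr1b : r1 * (1 + 2 * ‖v‖) ≤ R / 2 := by
          have : r1 ≤ R / 2 / (1 + 2 * ‖v‖) := min_le_right _ _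
          rwa [le_div_iff₀ (by positivity)] at this
        have hgood := good_hbump hN g0 hρ hr1p hu0n hRc
          (fun w hw => hg w (by linarith)) (by linarith) (hinv.mono hr1a)
        refine ⟨ball u0 (r1 / 2) ∩ sphere 0 ρ, inter_mem (mem_nhdsWithin_of_mem_nhds
          (ball_mem_nhds _ (by linarith))) self_mem_nhdsWithin, 1, fun _ => hbump ρ r1 p u0,
          fun _ => v, min (r1 / 2) 1, lt_min (by linarith) one_pos, fun _ _ => hgood, ?_⟩
        rintro w ⟨u, ⟨hu1, hu2⟩, t, ht, rfl⟩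
        left
        have hun : ‖u‖ = ρ := by simpa using hu2
        rw [mem_ball, dist_eq_norm] at hu1
        obtain ⟨k1, k2⟩ := hgw u t hun ht
        rw [Finset.sum_range_one, k1]
        show _ ≤ hbump ρ r1 p u0 (p + t • u)
        unfold hbump
        rw [k2]
        have k3 : ρ • (p + t • u - p) - (t * ρ) • u0 = (t * ρ) • (u - u0) := by
          rw [add_sub_cancel_left]; module
        have ht0 : 0 ≤ t * ρ := mul_nonneg ht.1 hρ.le
        rw [k3, norm_smul, Real.norm_of_nonneg ht0]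
        refine le_min ?_ ?_
        · refine le_trans ?_ (le_max_right _ _)
          have := mul_le_mul_of_nonneg_left hu1.le ht0
          have h5 : min (r1 / 2) 1 * (t * ρ) ≤ (r1 / 2) * (t * ρ) :=
            mul_le_mul_of_nonneg_right (min_le_left _ _) ht0
          linarith
        · refine le_trans ?_ (le_max_right _ _)
          have h5 : min (r1 / 2) 1 * (t * ρ) ≤ 1 * (t * ρ) :=
            mul_le_mul_of_nonneg_right (min_le_right _ _) ht0
          have h6 := mul_le_mul_of_nonneg_right ht.2 hρ.le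
          linarith
      · have hnhds : Sᶜ ∈ 𝓝 (p + u0, (0:ℝ)) := hS.isOpen_compl.mem_nhds hmem
        obtain ⟨r, hr, hb⟩ := Metric.nhds_basis_closedBall.mem_iff.1 hnhds
        have hfar : FarAt S (p + u0) r := by
          intro w' z' h1 h2
          refine hb ?_
          rw [mem_closedBall, Prod.dist_eq, max_le_iff]
          exact ⟨by rw [dist_eq_norm]; exact h1, by rw [Real.dist_eq, sub_zero]; exact h2⟩
        set r1 : ℝ := min (r / 2) (R / 2) with hr1
        have hr1p : 0 < r1 := lt_min (by linarith) (by linarith)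
        have hr1a : r1 ≤ r / 2 := min_le_left _ _
        have hr1b : r1 ≤ R / 2 := min_le_right _ _
        refine ⟨ball u0 r1 ∩ sphere 0 ρ, inter_mem (mem_nhdsWithin_of_mem_nhds
          (ball_mem_nhds _ hr1p)) self_mem_nhdsWithin, 0, fun _ _ => 0, fun _ => 0,
          r1 / ρ, by positivity, fun _ hk => absurd hk (Nat.not_lt_zero _), ?_⟩
        rintro w ⟨u, ⟨hu1, hu2⟩, t, ht, rfl⟩
        have hun : ‖u‖ = ρ := by simpa using hu2
        rw [mem_ball, dist_eq_norm] at hu1
        obtain ⟨k1, k2⟩ := hgw u t hun ht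
        rcases ht.1.eq_or_lt with h | h
        · left
          rw [k1, ← h]
          simp
        · right
          have h1 : FarAt S (p + u) r1 := by
            refine hfar.recentre ?_
            have : p + u - (p + u0) = u - u0 := by abel
            rw [this]; linarith
          have h2 := hRc.farAt h1 hr1p.le (by rw [hun]; linarith) (t := t)
            ⟨h, ht.2.trans (by norm_num)⟩
          refine h2.mono (le_of_eq ?_)
          rw [k1]
          field_simp
  have hp : Cov S g {p} :=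
    ⟨0, fun _ _ => 0, fun _ => 0, 1, one_pos, fun _ hk => absurd hk (Nat.not_lt_zero _),
      fun w hw => by
        left
        rw [mem_singleton_iff.1 hw, hgp]
        simp⟩
  refine ⟨ball p (ρ / 2), ball_mem_nhds _ (by linarith), (Cov.union g0 hp hcov).mono ?_⟩
  intro w hw
  rw [mem_ball, dist_eq_norm] at hw
  rcases eq_or_ne w p with h | h
  · left; exact h
  · right
    have hpos : 0 < ‖w - p‖ := norm_pos_iff.2 (sub_ne_zero.2 h)
    refine ⟨(ρ / ‖w - p‖) • (w - p), ?_, ‖w - p‖ / ρ, ⟨by positivity, ?_⟩, ?_⟩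
    · rw [mem_sphere_zero_iff_norm, norm_smul, Real.norm_of_nonneg (by positivity)]
      field_simp
    · rw [div_le_iff₀ hρ]; linarith
    · rw [smul_smul]
      have : ‖w - p‖ / ρ * (ρ / ‖w - p‖) = 1 := by field_simp
      rw [this, one_smul]; abel

/-- **straightening of the level `0`** -/
theorem exists_level [ProperSpace W] (hN : ConicalOn (fun w : W => ‖w‖) univ) (hS : IsCompact S)
    (g0 : ∀ w, 0 ≤ g w) (g1 : ∀ w, g w ≤ 1) (gc : Continuous g)
    (gz : ∀ p, g p = 0 → ∃ r > 0, ∀ w, ‖w - p‖ < r → g w = ‖w - p‖)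
    (hcone : ∀ p, g p = 0 → LocConeAt S (p, 0))
    (hreg : ∀ w, g w ≠ 0 → (w, (0:ℝ)) ∈ S → ∃ v, ∃ r > 0, InvAt S w v r) :
    ∃ (Φ : ConHomeo (univ : Set (W × ℝ)) (univ : Set (W × ℝ))) (δ : ℝ), 0 < δ ∧
      LevelPres Φ ∧ (∀ w, Φ.toFun (w, 0) = (w, 0)) ∧
      ∀ w z, |z| ≤ δ * g w → (Φ.toFun (w, z) ∈ S ↔ (w, (0:ℝ)) ∈ S) := by
  have hloc : ∀ w, ∃ A ∈ 𝓝 w, Cov S g A := by
    intro w
    by_cases hw : g w = 0
    · obtain ⟨r, hr, hgr⟩ := gz w hw
      refine cov_vertex hN hS.isClosed g0 hr hgr (hcone w hw) fun w' h1 h2 h3 => ?_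
      refine hreg w' ?_ h3
      rw [hgr w' h1]
      exact (norm_pos_iff.2 (sub_ne_zero.2 h2)).ne'
    · exact cov_regular hN hS.isClosed g0 g1 gc hw (hreg w hw)
  obtain ⟨R, hR⟩ := hS.isBounded.subset_closedBall (0 : W × ℝ)
  have hfar : Cov S g (closedBall (0:W) (R + 1))ᶜ := by
    refine ⟨0, fun _ _ => 0, fun _ => 0, 1, one_pos, fun _ hk => absurd hk (Nat.not_lt_zero _),
      fun w hw => Or.inr ?_⟩
    intro w' z' h1 h2 hmem
    have h3 := hR hmem
    rw [mem_closedBall, dist_zero_right] at h3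
    have h4 : ‖w'‖ ≤ R := (norm_fst_le (w', z')).trans h3
    rw [mem_compl_iff, mem_closedBall, dist_zero_right, not_le] at hw
    have h5 : ‖w‖ ≤ ‖w'‖ + ‖w' - w‖ := by
      have : w = w' - (w' - w) := by abel
      calc ‖w‖ = ‖w' - (w' - w)‖ := by rw [← this]
        _ ≤ _ := norm_sub_le _ _
    have := g1 w
    linarith
  have hcomp : Cov S g (closedBall (0:W) (R + 1)) := by
    refine (isCompact_closedBall (0:W) (R + 1)).induction_on (p := fun A => Cov S g A) cov_empty
      (fun A B hAB hB => hB.mono hAB) (fun A B hA hB => Cov.union g0 hA hB) fun w _ => ?_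
    obtain ⟨A, hA, hA'⟩ := hloc w
    exact ⟨A, mem_nhdsWithin_of_mem_nhds hA, hA'⟩
  obtain ⟨n, μ, v, κ, hκ, hgood, hcov⟩ := Cov.union g0 hcomp hfar
  exact exists_level_of_good g0 hgood hκ fun w => hcov w (by
    rw [union_compl_self]; exact mem_univ w)

end P073.H225
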